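import Vale.Agent.P073.H803.Blk7

/-!
# P073, block B09, [SUM-PAS]: the sums over the passive cubes of Round 1

* `pas_mem`, `cellT_eq`, `nSq_eq`: a passive cube of the partition of Round 1 is a cube of the
  partition of the domain, with the same minimal squares and minimal edges;
* `nSq_ne_top`: the weights are finite;
* `sum_pas`: the sum over the passive cubes;
* `exists_tol`, `exists_tol_sum`: the choice of the tolerances.
-/

namespace Vale.Agent.P073.H523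

open MeasureTheory Set Filter Topology Metric Vale.Agent.P073.St
open Vale.Agent.P073.AB Vale.Agent.P073.AB.P86
open Vale.Agent.P073.H73 (MinEdge)
open Vale.Agent.P073.H194 (cellT face_sub)
open Vale.Agent.P073.H687 (finite_minEdge)
open Vale.Agent.P073.H696 (blk blkS solid part1 Dom IsNear nSq)
open _root_.P073.Net (dyc dyo)
open scoped ENNReal

variable {Ω : Set V} {v : V} {I K : Set Idx} {n N N' k₁ : Idx → ℕ}

/-! ### Passive cubes -/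

/-- a passive cube of the partition of Round 1 is a cube of `I` and does not touch the blocks -/
theorem pas_mem {q : Idx} (hq : q ∈ part1 v K n k₁ I \ solid v K n (part1 v K n k₁ I)) :
    q ∈ I ∧ ∀ k ∈ K, Disjoint (dyc v q.1 q.2) (blkS v k (n k)) := by
  have h2 : ∀ k ∈ K, Disjoint (dyc v q.1 q.2) (blkS v k (n k)) := by
    intro k hk
    by_contra hne
    rw [Set.not_disjoint_iff_nonempty_inter] at hne
    exact hq.2 ⟨hq.1, k, hk, hne⟩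
  refine ⟨?_, h2⟩
  rcases hq.1 with h | ⟨k, hk, -, z, hz, hs⟩
  · exact h.1
  · exfalso
    have hx : cen v q.1 q.2 ∈ dyc v q.1 q.2 := dyo_sub_dyc (cen_mem v _ _)
    exact disjoint_left.1 (h2 k hk) hx (mem_iUnion₂.2 ⟨z, hz, hs hx⟩)

/-- the cubes which touch a cube away from the blocks -/
theorem mem_iff_of_touch {q q' : Idx} (hq : ∀ k ∈ K, Disjoint (dyc v q.1 q.2) (blkS v k (n k)))
    (h : (dyc v q'.1 q'.2 ∩ dyc v q.1 q.2).Nonempty) : q' ∈ part1 v K n k₁ I ↔ q' ∈ I := by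
  obtain ⟨y, hy, hyq⟩ := h
  constructor
  · rintro (h | ⟨k, hk, -, z, hz, hs⟩)
    · exact h.1
    · exact (disjoint_left.1 (hq k hk) hyq (mem_iUnion₂.2 ⟨z, hz, hs hy⟩)).elim
  · intro h
    exact Or.inl ⟨h, fun k hk z hz hs =>
      disjoint_left.1 (hq k hk) hyq (mem_iUnion₂.2 ⟨z, hz, hs hy⟩)⟩

theorem squ_nonempty (v : V) (s : Idx × Fin 3) : (squ v s).Nonempty := ⟨_, rel_sub sc_mem⟩

theorem face_iff {q : Idx} (hq : ∀ k ∈ K, Disjoint (dyc v q.1 q.2) (blkS v k (n k)))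
    {s : Idx × Fin 3} (hs : squ v s ⊆ dyc v q.1 q.2) :
    (∃ q' ∈ part1 v K n k₁ I, FaceOf s q') ↔ ∃ q' ∈ I, FaceOf s q' := by
  obtain ⟨y, hy⟩ := squ_nonempty v s
  constructor
  · rintro ⟨q', h1, h2⟩
    exact ⟨q', (mem_iff_of_touch hq ⟨y, face_sub h2 hy, hs hy⟩).1 h1, h2⟩
  · rintro ⟨q', h1, h2⟩
    exact ⟨q', (mem_iff_of_touch hq ⟨y, face_sub h2 hy, hs hy⟩).2 h1, h2⟩

theorem edge_iff {q : Idx} (hq : ∀ k ∈ K, Disjoint (dyc v q.1 q.2) (blkS v k (n k)))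
    {e : Idx × Fin 3} (he : edge v e ⊆ dyc v q.1 q.2) :
    (∃ q' ∈ part1 v K n k₁ I, EdgeOf e q') ↔ ∃ q' ∈ I, EdgeOf e q' := by
  obtain ⟨y, hy⟩ := Gr.edge_nonempty v e
  constructor
  · rintro ⟨q', h1, h2⟩
    exact ⟨q', (mem_iff_of_touch hq ⟨y, Gr.edge_subset_dyc h2 hy, he hy⟩).1 h1, h2⟩
  · rintro ⟨q', h1, h2⟩
    exact ⟨q', (mem_iff_of_touch hq ⟨y, Gr.edge_subset_dyc h2 hy, he hy⟩).2 h1, h2⟩

theorem minSq_iff {q : Idx} (hq : ∀ k ∈ K, Disjoint (dyc v q.1 q.2) (blkS v k (n k)))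
    {s : Idx × Fin 3} (hs : squ v s ⊆ dyc v q.1 q.2) :
    MinSq v (part1 v K n k₁ I) s ↔ MinSq v I s := by
  constructor
  · rintro ⟨h1, h2⟩
    exact ⟨(face_iff hq hs).1 h1, fun s' h3 h4 h5 h6 =>
      h2 s' ((face_iff hq (h6.trans hs)).2 h3) h4 h5 h6⟩
  · rintro ⟨h1, h2⟩
    exact ⟨(face_iff hq hs).2 h1, fun s' h3 h4 h5 h6 =>
      h2 s' ((face_iff hq (h6.trans hs)).1 h3) h4 h5 h6⟩

theorem minEdge_iff {q : Idx} (hq : ∀ k ∈ K, Disjoint (dyc v q.1 q.2) (blkS v k (n k)))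
    {e : Idx × Fin 3} (he : edge v e ⊆ dyc v q.1 q.2) :
    MinEdge v (part1 v K n k₁ I) e ↔ MinEdge v I e := by
  constructor
  · rintro ⟨h1, h2⟩
    exact ⟨(edge_iff hq he).1 h1, fun e' h3 h4 h5 =>
      h2 e' ((edge_iff hq (h5.trans he)).2 h3) h4 h5⟩
  · rintro ⟨h1, h2⟩
    exact ⟨(edge_iff hq he).2 h1, fun e' h3 h4 h5 =>
      h2 e' ((edge_iff hq (h5.trans he)).1 h3) h4 h5⟩

theorem tsum_congr_set {α : Type*} {P Q : α → Prop} (h : P = Q) (f : α → ℝ≥0∞) :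
    ∑' a : {a // P a}, f a.1 = ∑' a : {a // Q a}, f a.1 := by
  subst h; rfl

/-- the weighted sum of a passive cube is the same for both partitions -/
theorem cellT_eq {q : Idx} (hq : ∀ k ∈ K, Disjoint (dyc v q.1 q.2) (blkS v k (n k)))
    (A : Set V) (H : V → ℝ≥0∞) : cellT v (part1 v K n k₁ I) A H q = cellT v I A H q := by
  unfold cellT
  refine tsum_congr_set (funext fun F => propext ?_) fun F =>
    ∑' e : {e : Idx × Fin 3 // EdgeOfSq e F},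
      ENNReal.ofReal (1 / 2 ^ q.1 * (1 / 2 ^ F.1.1)) * eInt v e.1 H
  constructor
  · rintro ⟨h1, h2, h3⟩
    exact ⟨(minSq_iff hq h2).1 h1, h2, h3⟩
  · rintro ⟨h1, h2, h3⟩
    exact ⟨(minSq_iff hq h2).2 h1, h2, h3⟩

theorem nSq_eq {q : Idx} (hq : ∀ k ∈ K, Disjoint (dyc v q.1 q.2) (blkS v k (n k))) :
    nSq v (part1 v K n k₁ I) q = nSq v I q := by
  have h1 : ∀ s : Idx × Fin 3, squ v s ⊆ dyc v q.1 q.2 →
      (∑' _e : {e : Idx × Fin 3 // MinEdge v (part1 v K n k₁ I) e ∧ edge v e ⊆ squ v s},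
        ENNReal.ofReal (1 / 2 ^ q.1 * (1 / 2 ^ s.1.1))) =
      ∑' _e : {e : Idx × Fin 3 // MinEdge v I e ∧ edge v e ⊆ squ v s},
        ENNReal.ofReal (1 / 2 ^ q.1 * (1 / 2 ^ s.1.1)) := by
    intro s hs
    refine tsum_congr_set (funext fun e => propext ?_) fun _ =>
      ENNReal.ofReal (1 / 2 ^ q.1 * (1 / 2 ^ s.1.1))
    constructor
    · rintro ⟨h1, h2⟩
      exact ⟨(minEdge_iff hq (h2.trans hs)).1 h1, h2⟩
    · rintro ⟨h1, h2⟩
      exact ⟨(minEdge_iff hq (h2.trans hs)).2 h1, h2⟩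
  unfold nSq
  rw [tsum_congr fun s : {s : Idx × Fin 3 // MinSq v (part1 v K n k₁ I) s ∧
    squ v s ⊆ dyc v q.1 q.2} => h1 s.1 s.2.2]
  refine tsum_congr_set (funext fun s => propext ?_) fun s =>
    ∑' _e : {e : Idx × Fin 3 // MinEdge v I e ∧ edge v e ⊆ squ v s},
      ENNReal.ofReal (1 / 2 ^ q.1 * (1 / 2 ^ s.1.1))
  constructor
  · rintro ⟨h1, h2⟩
    exact ⟨(minSq_iff hq h2).1 h1, h2⟩
  · rintro ⟨h1, h2⟩
    exact ⟨(minSq_iff hq h2).2 h1, h2⟩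

/-- **(i)** -/
theorem pas_cellT {q : Idx} (hq : q ∈ part1 v K n k₁ I \ solid v K n (part1 v K n k₁ I))
    (H : V → ℝ≥0∞) :
    q ∈ I ∧ cellT v (part1 v K n k₁ I) univ H q = cellT v I univ H q :=
  ⟨(pas_mem hq).1, cellT_eq (pas_mem hq).2 univ H⟩

/-! ### The weights -/

/-- **(ii)** the weights are finite -/
theorem nSq_ne_top (hI : Part Ω v I) {q : Idx} (hq : q ∈ I) : nSq v I q ≠ ⊤ := by
  have h1 : Finite {s : Idx × Fin 3 // MinSq v I s ∧ squ v s ⊆ dyc v q.1 q.2} :=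
    (finite_minSq hI hq).to_subtype
  have := Fintype.ofFinite {s : Idx × Fin 3 // MinSq v I s ∧ squ v s ⊆ dyc v q.1 q.2}
  unfold nSq
  rw [tsum_fintype]
  refine ENNReal.sum_ne_top.2 fun s _ => ?_
  have h2 : Finite {e : Idx × Fin 3 // MinEdge v I e ∧ edge v e ⊆ squ v s.1} :=
    (finite_minEdge hI s.2.1).to_subtype
  have := Fintype.ofFinite {e : Idx × Fin 3 // MinEdge v I e ∧ edge v e ⊆ squ v s.1}
  rw [tsum_fintype]
  exact ENNReal.sum_ne_top.2 fun e _ => ENNReal.ofReal_ne_top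

/-! ### The sum -/

/-- a tsum over a subtype, as a tsum over a set -/
theorem tsum_le_of_cover {α κ : Type*} (A O : Set α) (Bx : κ → Set α) (f : α → ℝ≥0∞)
    (h : A ⊆ O ∪ ⋃ k, Bx k) :
    ∑' a : A, f a ≤ ∑' a : O, f a + ∑' k, ∑' a : Bx k, f a := by
  calc ∑' a : A, f a ≤ ∑' a : (O ∪ ⋃ k, Bx k : Set α), f a := ENNReal.tsum_mono_subtype f h
    _ ≤ ∑' a : O, f a + ∑' a : (⋃ k, Bx k), f a := ENNReal.tsum_union_le f O _
    _ ≤ _ := by
        gcongr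
        exact ENNReal.tsum_iUnion_le_tsum f Bx

/-- **(iii)** the sum over the passive cubes -/
theorem sum_pas {H : V → ℝ≥0∞} {r : V → ℝ} {εD : ℝ≥0∞} {tolD : Idx → ℝ≥0∞}
    (Dm : Dom Ω v H K n N r εD tolD I N') {C₂ : ℝ} {B Eq : Idx → ℝ} (tol : Idx → ℝ≥0∞)
    (h1 : ∀ q, (∀ k ∈ K, ¬ dyc v q.1 q.2 ⊆ dyc v k.1 k.2) → Eq q ≤ C₂)
    (h2 : ∀ k ∈ K, ∀ q : Idx, dyc v q.1 q.2 ⊆ dyc v k.1 k.2 → Eq q ≤ B k) :
    ∑' q : {q : Idx // q ∈ part1 v K n k₁ I \ solid v K n (part1 v K n k₁ I)},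
      ENNReal.ofReal (Eq q.1) * (cellT v (part1 v K n k₁ I) univ H q.1 +
        nSq v (part1 v K n k₁ I) q.1 * tol q.1) ≤
      ENNReal.ofReal C₂ * (36 * (∫⁻ y in Ω \ ⋃ k ∈ K, dyc v k.1 k.2, H y) + εD) +
      (∑' k : {k : Idx // k ∈ K}, ENNReal.ofReal (B k.1) *
        (36 * (∫⁻ y in dyc v k.1.1 k.1.2 \ blkS v k.1 (n k.1), H y) + tolD k.1)) +
      ∑' q : {q : Idx // q ∈ part1 v K n k₁ I \ solid v K n (part1 v K n k₁ I)},
        ENNReal.ofReal (Eq q.1) * (nSq v (part1 v K n k₁ I) q.1 * tol q.1) := by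
  set I₁ := part1 v K n k₁ I with hI₁
  set S := solid v K n I₁ with hS
  simp only [mul_add]
  rw [ENNReal.tsum_add, ← mul_add]
  gcongr
  -- the cubes outside of the boxes and in the boxes
  set f : Idx → ℝ≥0∞ := fun q => ENNReal.ofReal (Eq q) * cellT v I₁ univ H q with hf
  set O : Set Idx := {q | q ∈ I₁ \ S ∧ ∀ k ∈ K, ¬ dyc v q.1 q.2 ⊆ dyc v k.1 k.2} with hO
  set Bx : {k : Idx // k ∈ K} → Set Idx := fun k =>
    {q | q ∈ I₁ \ S ∧ dyc v q.1 q.2 ⊆ dyc v k.1.1 k.1.2} with hBx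
  have hcov : I₁ \ S ⊆ O ∪ ⋃ k, Bx k := by
    intro q hq
    by_cases h : ∀ k ∈ K, ¬ dyc v q.1 q.2 ⊆ dyc v k.1 k.2
    · exact Or.inl ⟨hq, h⟩
    · push Not at h
      obtain ⟨k, hk, h⟩ := h
      exact Or.inr (mem_iUnion.2 ⟨⟨k, hk⟩, hq, h⟩)
  refine (tsum_le_of_cover (I₁ \ S) O Bx f hcov).trans
    (add_le_add ?_ (ENNReal.tsum_le_tsum fun k => ?_))
  · -- outside
    have h3 : ∑' q : O, f q ≤ ∑' q : O, ENNReal.ofReal C₂ * cellT v I univ H q.1 := by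
      refine ENNReal.tsum_le_tsum fun q => ?_
      simp only [hf]
      rw [(pas_cellT q.2.1 H).2]
      gcongr
      exact h1 _ q.2.2
    refine h3.trans ?_
    rw [ENNReal.tsum_mul_left]
    gcongr
    refine le_trans ?_ Dm.sumOut
    exact ENNReal.tsum_mono_subtype (fun q => cellT v I univ H q)
      (show O ⊆ {q : Idx | q ∈ I ∧ ∀ k ∈ K, ¬ dyc v q.1 q.2 ⊆ dyc v k.1 k.2} from
        fun q hq => ⟨(pas_mem hq.1).1, hq.2⟩)
  · -- in a box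
    have h3 : ∑' q : Bx k, f q ≤ ∑' q : Bx k, ENNReal.ofReal (B k.1) * cellT v I univ H q.1 := by
      refine ENNReal.tsum_le_tsum fun q => ?_
      simp only [hf]
      rw [(pas_cellT q.2.1 H).2]
      gcongr
      exact h2 k.1 k.2 _ q.2.2
    refine h3.trans ?_
    rw [ENNReal.tsum_mul_left, ← mul_add]
    gcongr
    refine le_trans ?_ (Dm.sumBox k.1 k.2)
    refine ENNReal.tsum_mono_subtype (fun q => cellT v I univ H q)
      (show Bx k ⊆ {q : Idx | q ∈ I ∧ dyc v q.1 q.2 ⊆ dyc v k.1.1 k.1.2 ∧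
        ¬ IsNear v n N k.1 q} from fun q hq => ⟨(pas_mem hq.1).1, hq.2, fun hn => ?_⟩)
    obtain ⟨y, hy1, hy2⟩ := hn.2
    exact disjoint_left.1 ((pas_mem hq.1).2 k.1 k.2) hy1 hy2

/-! ### The tolerances -/

/-- **(iv)** the choice of the tolerances -/
theorem exists_tol (hI : Part Ω v I) (EM : Idx → ℝ) {ε : ℝ≥0∞} (hε : ε ≠ 0) :
    ∃ tol : Idx → ℝ≥0∞, (∀ q, tol q ≠ 0 ∧ tol q ≤ 1) ∧
      ∀ (A : Set Idx) (Eq : Idx → ℝ), A ⊆ I → (∀ q ∈ A, Eq q ≤ EM q) →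
        ∑' q : {q : Idx // q ∈ A}, ENNReal.ofReal (Eq q.1) * (nSq v I q.1 * tol q.1) ≤ ε := by
  classical
  obtain ⟨ε', h1, h2⟩ := ENNReal.exists_pos_sum_of_countable' hε Idx
  refine ⟨fun q => if q ∈ I then min 1 (ε' q / (ENNReal.ofReal (EM q) * nSq v I q + 1)) else 1,
    fun q => ?_, fun A Eq hA hEq => ?_⟩
  · dsimp only
    split_ifs with hq
    · refine ⟨?_, min_le_left _ _⟩
      rw [← pos_iff_ne_zero, lt_min_iff]
      refine ⟨one_pos, ENNReal.div_pos (h1 q).ne' ?_⟩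
      exact ENNReal.add_ne_top.2 ⟨ENNReal.mul_ne_top ENNReal.ofReal_ne_top (nSq_ne_top hI hq),
        ENNReal.one_ne_top⟩
    · exact ⟨one_ne_zero, le_rfl⟩
  · have h3 : ∀ q : {q : Idx // q ∈ A}, ENNReal.ofReal (Eq q.1) * (nSq v I q.1 *
        (if q.1 ∈ I then min 1 (ε' q.1 / (ENNReal.ofReal (EM q.1) * nSq v I q.1 + 1)) else 1)) ≤
        ε' q.1 := by
      intro q
      rw [if_pos (hA q.2)]
      have h4 := hEq q.1 q.2
      calc ENNReal.ofReal (Eq q.1) * (nSq v I q.1 *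
            min 1 (ε' q.1 / (ENNReal.ofReal (EM q.1) * nSq v I q.1 + 1)))
          ≤ ENNReal.ofReal (EM q.1) * (nSq v I q.1 *
            (ε' q.1 / (ENNReal.ofReal (EM q.1) * nSq v I q.1 + 1))) := by
            gcongr
            exact min_le_right _ _
        _ = (ENNReal.ofReal (EM q.1) * nSq v I q.1) *
            (ε' q.1 / (ENNReal.ofReal (EM q.1) * nSq v I q.1 + 1)) := by rw [mul_assoc]
        _ ≤ (ENNReal.ofReal (EM q.1) * nSq v I q.1 + 1) *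
            (ε' q.1 / (ENNReal.ofReal (EM q.1) * nSq v I q.1 + 1)) := by
            gcongr
            exact le_self_add
        _ ≤ ε' q.1 := ENNReal.mul_div_le
    refine (ENNReal.tsum_le_tsum h3).trans ?_
    refine le_trans ?_ h2.le
    exact ENNReal.tsum_comp_le_tsum_of_injective Subtype.val_injective ε'

open Classical in
/-- the constant of the cube `q`: `B k` in the box `k`, `C₂` elsewhere -/
noncomputable def EMx (v : V) (K : Set Idx) (C₂ : ℝ) (B : Idx → ℝ) (q : Idx) : ℝ :=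
  if h : ∃ k ∈ K, dyc v q.1 q.2 ⊆ dyc v k.1 k.2 then B h.choose else C₂

theorem le_EMx {C₂ : ℝ} {B Eq : Idx → ℝ}
    (h1 : ∀ q, (∀ k ∈ K, ¬ dyc v q.1 q.2 ⊆ dyc v k.1 k.2) → Eq q ≤ C₂)
    (h2 : ∀ k ∈ K, ∀ q : Idx, dyc v q.1 q.2 ⊆ dyc v k.1 k.2 → Eq q ≤ B k) (q : Idx) :
    Eq q ≤ EMx v K C₂ B q := by
  unfold EMx
  split_ifs with h
  · exact h2 _ h.choose_spec.1 q h.choose_spec.2
  · push Not at h
    exact h1 q h

/-- **[SUM-PAS]** the tolerances and the sum over the passive cubes -/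
theorem exists_tol_sum (hI₁ : Part Ω v (part1 v K n k₁ I)) (C₂ : ℝ) (B : Idx → ℝ) {ε : ℝ≥0∞}
    (hε : ε ≠ 0) :
    ∃ tol : Idx → ℝ≥0∞, (∀ q, tol q ≠ 0 ∧ tol q ≤ 1) ∧
      ∀ (H : V → ℝ≥0∞) (r : V → ℝ) (εD : ℝ≥0∞) (tolD : Idx → ℝ≥0∞) (N N' : Idx → ℕ)
        (Eq : Idx → ℝ), Dom Ω v H K n N r εD tolD I N' →
        (∀ q, (∀ k ∈ K, ¬ dyc v q.1 q.2 ⊆ dyc v k.1 k.2) → Eq q ≤ C₂) →
        (∀ k ∈ K, ∀ q : Idx, dyc v q.1 q.2 ⊆ dyc v k.1 k.2 → Eq q ≤ B k) →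
        ∑' q : {q : Idx // q ∈ part1 v K n k₁ I \ solid v K n (part1 v K n k₁ I)},
          ENNReal.ofReal (Eq q.1) * (cellT v (part1 v K n k₁ I) univ H q.1 +
            nSq v (part1 v K n k₁ I) q.1 * tol q.1) ≤
          ENNReal.ofReal C₂ * (36 * (∫⁻ y in Ω \ ⋃ k ∈ K, dyc v k.1 k.2, H y) + εD) +
          (∑' k : {k : Idx // k ∈ K}, ENNReal.ofReal (B k.1) *
            (36 * (∫⁻ y in dyc v k.1.1 k.1.2 \ blkS v k.1 (n k.1), H y) + tolD k.1)) + ε := by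
  obtain ⟨tol, h1, h2⟩ := exists_tol hI₁ (EMx v K C₂ B) hε
  refine ⟨tol, h1, fun H r εD tolD N N' Eq Dm h3 h4 => ?_⟩
  refine (sum_pas Dm tol h3 h4).trans ?_
  gcongr
  exact h2 _ Eq sdiff_subset fun q _ => le_EMx h3 h4 q

end Vale.Agent.P073.H523
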