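import Vale.Agent.P073.H429.Prot3E
import Vale.Agent.P073.H805.Marks2

/-!
# P073, H523, **[TopP]**: the numbers of ROUND P which come from the displacement

Slot (0): `J s ≤ 8388608 ω3S`; slot (2): `muP s ≤ oS s / 2`.  Then the displacement, the half width
of the levels and the steps are at most `oS s` (`S5.protN`, `S5.prot`).
-/

open Set Metric Topology Filter

set_option linter.unusedSectionVars false

namespace Vale.Agent.P073.H267.K3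

open _root_.P073 _root_.P073.Net _root_.P073.PA691 _root_.P073.H236 _root_.P073.H579
open _root_.P073.H936 _root_.P073.H936.K3
open _root_.P073.H142
open _root_.P073.H345 (PK tg PLev)
open _root_.P073.H880.RP
open _root_.P073.H237.Cov (pst)
open Vale.Agent.P073.St (V)
open Vale.Agent.P073.H471 Vale.Agent.P073.H267
open Vale.Agent.P073.H73 (Mesh)
open Vale.Agent.P073.H193 (Edges Cyc edges)
open Vale.Agent.P073.H304 (Nb In Zmax)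
open Vale.Agent.P073.H926
open Vale.Agent.P073.H238.K3

variable {c₀ n δ : ℝ} {j : ℕ} {Ω Λ : Set V} {v w : V} {ρ : V → ℝ} {M : Mesh Ω} {h : ConHomeo Ω Λ}
  {J₀ J : Set (ℕ × (Fin 3 → ℤ))} {P Z : Set M.ι} {K : BoxCx Λ w}

theorem oS_pos' (D : KIn3 c₀ n j δ v w ρ M h J₀ J P Z) (C : Cells ρ w K) (s : K.S) :
    0 < (D.G C).oS s := by
  have h1 := D.ω3S_oS C s
  have h2 := D.ω3S_pos C s
  linarith

section nums

variable {D : KIn3 c₀ n j δ v w ρ M h J₀ J P Z} {C : Cells ρ w K} {C₀ μT : ℝ}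
  {X : S1 D C C₀ μT} {Y₂ : S2 X} {Ys : Set M.κ} {sc : Sharp}

/-- **the displacement** -/
theorem S3.D_le_of (Y₃ : S3 Y₂ Ys sc) {r : K.S → ℝ} (hm : ∀ s, Y₂.muP s ≤ r s / 2)
    (hJ : ∀ s, Y₂.J s ≤ r s / 2) (s : (D.dat C).S₀) (β : Bool) : (Y₃.F β).D s ≤ r s.1 := by
  rw [F3W_D]
  have h1 := hm s.1
  have h2 := hJ s.1
  linarith

/-- the displacement, by `oS` -/
theorem S3.D_le_oS (Y₃ : S3 Y₂ Ys sc) (hJ : ∀ s, Y₂.J s ≤ 8388608 * ω3S δ C s)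
    (hm : ∀ s, Y₂.muP s ≤ (D.G C).oS s / 2) (s : (D.dat C).S₀) (β : Bool) :
    (Y₃.F β).D s ≤ (D.G C).oS s.1 :=
  Y₃.D_le_of hm (fun s => by linarith [hJ s, D.ω3S_oS C s]) s β

/-- the half width of the levels -/
theorem S2.c_le_mu (Y₂ : S2 X) (s : K.S) (β : Bool) : Y₂.L.c s β ≤ Y₂.muP s := by
  have h1 := Y₂.Lw.δμ s
  have h2 := Y₂.Lw.δ0 s
  show Y₂.dP s / 8 ≤ _
  linarith

/-- the steps -/
theorem S2.om_le_mu (Y₂ : S2 X) (s : K.S) (β : Bool) : Y₂.Lw.om s β ≤ Y₂.muP s := by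
  have h1 := Y₂.Lw.δμ s
  have h2 := Y₂.Lw.δ0 s
  have h3 := Y₂.Lw.om_le_two s β
  linarith

theorem S2.pst_le_mu (Y₂ : S2 X) {c : K.S → Bool → ℝ} {c0 : ∀ s β, 0 < c s β}
    {c1 : ∀ s β, c s β ≤ Y₂.L.c s β} (s : K.S) (β : Bool) :
    pst (thinL Y₂.L c c0 c1) s β ≤ Y₂.muP s := Y₂.om_le_mu s β

/-- **`hθ`, `hD`, `hc`, `hst` of `S5.prot` / `S5.protN`** from slots (0) and (2) -/
theorem S3.numP (Y₃ : S3 Y₂ Ys sc) (hJ : ∀ s, Y₂.J s ≤ 8388608 * ω3S δ C s)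
    (hm : ∀ s, Y₂.muP s ≤ (D.G C).oS s / 2) :
    (∀ (s : (D.dat C).S₀) (β : Bool), (Y₃.F β).D s ≤ (D.G C).oS s.1) ∧
    (∀ (s : (D.dat C).S₀) (β : Bool), Y₂.L.c s.1 β ≤ (D.G C).oS s.1) ∧
    (∀ (s : (D.dat C).S₀) (β : Bool), pst Y₃.Lt s.1 β ≤ (D.G C).oS s.1) ∧
    ∀ (s : (D.dat C).S₀) (β : Bool),
      (6 * (Y₃.F β).D s + Y₂.L.c s.1 β) * (4 / (D.B C).τ s.1) ≤ 1 := by
  have h0 : ∀ s : K.S, Y₂.muP s ≤ (D.G C).oS s := fun s => by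
    have h1 := oS_pos' D C s
    linarith [hm s]
  have hD := Y₃.D_le_oS hJ hm
  have hc : ∀ (s : (D.dat C).S₀) (β : Bool), Y₂.L.c s.1 β ≤ (D.G C).oS s.1 := fun s β =>
    (Y₂.c_le_mu s.1 β).trans (h0 s.1)
  exact ⟨hD, hc, fun s β => (Y₂.pst_le_mu s.1 β).trans (h0 s.1), Y₃.theta_of hD hc⟩

end nums

/-- **880's leaf [TopP], slot (2)** -/
theorem exists_mP (D : KIn3 c₀ n j δ v w ρ M h J₀ J P Z) (C : Cells ρ w K) :
    ∃ m : K.S → ℝ, (∀ s, 0 < m s) ∧ ∀ {C₀ μT : ℝ} {X : S1 D C C₀ μT} (Y₂ : S2 X) {Ys : Set M.κ}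
      {sc : Sharp} (Y₃ : S3 Y₂ Ys sc), (∀ s, Y₂.J s ≤ 8388608 * ω3S δ C s) →
      (∀ s, Y₂.muP s ≤ m s) →
      (∀ (s : (D.dat C).S₀) (β : Bool), (Y₃.F β).D s ≤ (D.G C).oS s.1) ∧
      (∀ (s : (D.dat C).S₀) (β : Bool), Y₂.L.c s.1 β ≤ (D.G C).oS s.1) ∧
      (∀ (s : (D.dat C).S₀) (β : Bool), pst Y₃.Lt s.1 β ≤ (D.G C).oS s.1) ∧
      ∀ (s : (D.dat C).S₀) (β : Bool),
        (6 * (Y₃.F β).D s + Y₂.L.c s.1 β) * (4 / (D.B C).τ s.1) ≤ 1 :=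
  ⟨fun s => (D.G C).oS s / 2, fun s => half_pos (oS_pos' D C s), fun _ _ _ Y₃ hJ hm =>
    Y₃.numP hJ hm⟩

end Vale.Agent.P073.H267.K3
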