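import Vale.Agent.P073.H523.SumLoc
import Vale.Agent.P073.H239.FSpec

/-!
# P073, block B10, [SUM-LOC]: the passive half of the energy `enX`
-/

namespace Vale.Agent.P073.H523

open MeasureTheory Set Filter Topology Metric Vale.Agent.P073.St
open Vale.Agent.P073.AB Vale.Agent.P073.AB.P86
open Vale.Agent.P073.H194 (cellT)
open Vale.Agent.P073.H696 (blk blkS solid part1 Dom IsNear nSq R2)
open Vale.Agent.P073.H239 (enP eP DomL)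
open Vale.Agent.P073.H851 (M3)
open _root_.P073.Net (dyc dyo)
open scoped ENNReal

variable {p Cu : ℝ} {Lc : M3 → ℝ} {δ : ℝ} {j : ℕ} {ε : ℝ} {Ω Λ : Set V} {f : V → V} {F : V → Mat}
  {v : V}

/-- the energy of the passive cubes which meet `A` -/
theorem enP_le (X : R2 p Cu Lc δ j ε Ω Λ f F v) {I : Set Idx} {k₁ N N' : Idx → ℕ} {r : V → ℝ}
    {εD : ℝ≥0∞} {tolD : Idx → ℝ≥0∞} {r₀ : ℝ}
    (hI₁ : X.I₁ = part1 v X.K X.n k₁ I) (hS : X.S = solid v X.K X.n X.I₁)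
    (D : DomL Ω v X.H X.K X.n N r εD tolD r₀ I N') {C₂ : ℝ} {B : Idx → ℝ}
    (h1 : ∀ q, (∀ k ∈ X.K, ¬ dyc v q.1 q.2 ⊆ dyc v k.1 k.2) → X.Eq q ≤ C₂)
    (h2 : ∀ k ∈ X.K, ∀ q : Idx, dyc v q.1 q.2 ⊆ dyc v k.1 k.2 → X.Eq q ≤ B k)
    {εt : ℝ≥0∞} (h3 : ∑' q : {q : Idx // q ∈ X.I₁ \ X.S},
      ENNReal.ofReal (X.Eq q.1) * (nSq v X.I₁ q.1 * X.tol q.1) ≤ εt) (A : Set V) :
    enP X A ≤ ENNReal.ofReal C₂ *
      (36 * (∫⁻ y in {y | y ∈ Ω ∧ infDist y A ≤ r₀} \ ⋃ k ∈ X.K, dyc v k.1 k.2, X.H y) + εD) +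
      (∑' k : {k : Idx // k ∈ X.K ∧ (dyc v k.1 k.2 ∩ A).Nonempty}, ENNReal.ofReal (B k.1) *
        (36 * (∫⁻ y in dyc v k.1.1 k.1.2 \ blkS v k.1 (X.n k.1), X.H y) + tolD k.1)) + εt := by
  have h4 := sum_pas_loc (k₁ := k₁) D.toDom X.tol h1 h2 A (D.outL A)
  rw [← hI₁, ← hS] at h4
  refine le_trans h4 ?_
  gcongr
  refine le_trans ?_ h3
  exact ENNReal.tsum_mono_subtype
    (fun q => ENNReal.ofReal (X.Eq q) * (nSq v X.I₁ q * X.tol q))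
    (show {q : Idx | q ∈ X.I₁ \ X.S ∧ (dyc v q.1 q.2 ∩ A).Nonempty} ⊆ {q | q ∈ X.I₁ \ X.S} from
      fun q hq => hq.1)

end Vale.Agent.P073.H523
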