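import Vale.Agent.P073.H523.EdgeP
import Vale.Agent.P073.PK.Sob560b
import Vale.Agent.P073.H83.Gen

/-!
# P073, block B09, [OWNP]: origin and generations for the good boxes

One subsequence of generations for which, for almost every origin: the rational segments are good,
the mesh theorem applies to `‖F‖ ^ p`, and around almost every point the averages of
`‖F - F x‖ ^ p` over the own edges and squares are small.
-/

open Set Metric Topology Filter MeasureTheory
open scoped ENNReal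

namespace Vale.Agent.P073.H523

open Vale.Agent.P073.AB (Idx pt edge eInt squ cl RatGood)
open _root_.P073.Net (dyc dyo)
open Vale.Agent.P073.St (V Mat IsBoundedDomain IsSobolev)
open Vale.Agent.P073.SQ (ev)
open Vale.Agent.P073.H194 (idx sInt Gen cSum fSum)
open Vale.Agent.P073.H83 (GenB)

theorem gen_comp {v : V} {nn : ℕ → ℕ} {H : V → ℝ≥0∞} (h : Gen v nn H) {φ : ℕ → ℕ}
    (hφ : StrictMono φ) : Gen v (fun l => nn (φ l)) H :=
  ⟨h.efin, h.sfin, fun q k δ hδ => hφ.tendsto_atTop.eventually (h.cube q k δ hδ),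
    fun s k hk δ hδ => hφ.tendsto_atTop.eventually (h.square s k hk δ hδ)⟩

/-- `Gen` for two densities with the same integrals -/
theorem gen_congr {v : V} {nn : ℕ → ℕ} {H H' : V → ℝ≥0∞} (h : Gen v nn H)
    (he : ∀ e, eInt v e H' = eInt v e H) (hs : ∀ s, sInt v s H' = sInt v s H)
    (hc : H' =ᵐ[volume] H) : Gen v nn H' where
  efin e := by rw [he]; exact h.efin e
  sfin s := by rw [hs]; exact h.sfin s
  cube q k δ hδ := by
    filter_upwards [h.cube q k δ hδ] with l hl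
    have h1 : cSum v q (nn l) k H' = cSum v q (nn l) k H := by
      unfold cSum
      simp only [he]
    rw [h1, setLIntegral_congr_fun_ae (measurableSet_dyc v q.1 q.2) (by
      filter_upwards [hc] with x hx _ using hx)]
    exact hl
  square s k hk δ hδ := by
    filter_upwards [h.square s k hk δ hδ] with l hl
    have h1 : fSum v s (nn l) k H' = fSum v s (nn l) k H := by
      unfold fSum
      simp only [he]
    rw [h1, hs]
    exact hl

/-- everything that is needed from the origin `v` and the generations `nn` -/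
structure OwnGen (p : ℝ) (Ω : Set V) (f : V → V) (F : V → Mat) (nn : ℕ → ℕ) (v : V) : Prop where
  rat : RatGood v Ω f F
  /-- the density is `HF p Ω F` of block B09 -/
  gen : Gen v nn (fun y => ‖Ω.indicator (fun y => cl (F y)) y‖ₑ ^ p)
  eleb : ∀ᵐ x : V, EdgeLebP p v nn (Ω.indicator fun x => cl (F x)) x
  sleb : ∀ᵐ x : V, SquLeb p v nn (Ω.indicator fun x => cl (F x)) x

/-- **(OWNP)**: own edges and squares in the `p`-th power -/
theorem OwnGen.own {p : ℝ} {Ω : Set V} {f : V → V} {F : V → Mat} {nn : ℕ → ℕ} {v : V}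
    (h : OwnGen p Ω f F nn v) (hΩ : IsOpen Ω) (hnn : StrictMono nn) :
    ∀ᵐ x : V, x ∈ Ω → ∀ (s : ℕ) (κ : ℝ), 0 < κ → ∀ᶠ l in atTop,
      dyc v (nn l) (idx v (nn l) x) ⊆ Ω ∧
      (∀ e : Idx × Fin 3, e.1.1 = nn l + s → edge v e ⊆ dyc v (nn l) (idx v (nn l) x) →
        eInt v e (fun y => ‖cl (F y) - cl (F x)‖ₑ ^ p) ≤ ENNReal.ofReal (κ / 2 ^ e.1.1)) ∧
      ∀ t : Idx × Fin 3, t.1.1 = nn l + s → squ v t ⊆ dyc v (nn l) (idx v (nn l) x) →
        sInt v t (fun y => ‖cl (F y) - cl (F x)‖ₑ ^ p) ≤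
          ENNReal.ofReal (κ / (2 ^ t.1.1) ^ 2) := by
  filter_upwards [h.eleb, h.sleb] with x hx hx' hxΩ s κ hκ
  filter_upwards [hx.own hΩ hxΩ hnn s hκ, hx'.own hΩ hxΩ hnn s hκ] with l hl hl'
  refine ⟨hl.1, fun e he hes => ?_, fun t ht hts => ?_⟩
  · rw [he]
    exact hl.2 e he hes
  · have h1 := hl'.2 t ht hts
    rw [ht, ← pow_mul, mul_comm, pow_mul]
    norm_num
    exact h1

/-- **(OWNP)**: the origin and the subsequence -/
theorem exists_ownGen {p : ℝ} (hp : 1 ≤ p) {Ω : Set V} (hΩ : St.IsBoundedDomain Ω)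
    {f : V → V} {F : V → Mat} (hfc : ContinuousOn f Ω) (hF : St.IsSobolev p Ω f F) {M₀ : ℕ → ℕ}
    (hM₀ : StrictMono M₀) :
    ∃ φ : ℕ → ℕ, StrictMono φ ∧ ∀ᵐ v ∂(volume.restrict (Icc (0:V) 1)),
      OwnGen p Ω f F (fun l => M₀ (φ l)) v := by
  have hp0 : 0 < p := by linarith
  have hv := PK.volume_ne_top_of_domain hΩ
  set G₀ : V → ℝ≥0∞ := fun y => ‖Ω.indicator (fun y => cl (F y)) y‖ₑ ^ p with hG₀
  have hmem := memLp_indicator_cl hΩ hF
  have hm0 : AEMeasurable G₀ := hmem.1.enorm.pow_const p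
  set G := hm0.mk G₀ with hG
  have hGm : Measurable G := hm0.measurable_mk
  have hGG : G₀ =ᵐ[volume] G := hm0.ae_eq_mk
  have hint : ∫⁻ x, G x ≠ ⊤ := by
    rw [← lintegral_congr_ae hGG]
    have h2 := (eLpNorm_lt_top_iff_lintegral_rpow_enorm_lt_top (by
      rw [Ne, ENNReal.ofReal_eq_zero, not_le]; exact hp0) ENNReal.ofReal_ne_top).1 hmem.2
    rw [ENNReal.toReal_ofReal hp0.le] at h2
    exact h2.ne
  obtain ⟨φ₁, hφ₁, h1⟩ := H83.exists_gen (ι := Unit) (κ := Empty) (fun _ => G) ∅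
    (fun k => k.elim) (fun _ => hGm) (fun _ => hint) countable_empty (fun k => k.elim)
    (fun k => k.elim) hM₀
  obtain ⟨φ₂, hφ₂, h2⟩ := exists_edge_lebP_sobolev hp hΩ hF (hM₀.comp hφ₁)
  obtain ⟨φ₃, hφ₃, h3⟩ := exists_squ_leb_sobolev hp hΩ hF ((hM₀.comp hφ₁).comp hφ₂)
  refine ⟨fun l => φ₁ (φ₂ (φ₃ l)), (hφ₁.comp hφ₂).comp hφ₃, ?_⟩
  have h4 := ae_restrict_of_ae (s := Icc (0:V) 1) (PK.ae_ratGood hp hΩ.1 hv hfc hF)
  have h5 := ae_restrict_of_ae (s := Icc (0:V) 1) (H83.ae_rep (N := {x | ¬ G₀ x = G x}) hGG)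
  filter_upwards [h1, h2, h3, h4, h5] with v h1 h2 h3 h4 h5
  have h6 := h5 G₀ G fun x hx => by
    by_contra hcon
    exact hx hcon
  refine ⟨h4, ?_, ?_, h3⟩
  · exact gen_congr (gen_comp (h1.1 ()) (hφ₂.comp hφ₃)) h6.1 h6.2 hGG
  · filter_upwards [h2] with x hx
    exact hx.comp hφ₃

end Vale.Agent.P073.H523
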