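import Vale.Agent.P073.H235.PreParts
import Vale.Agent.P073.H83.Wt

/-!
# P073, block A16, (L2) [COUNT]: the squares of the generations `m ≤ n₃ ≤ nS` in a rectangle
-/

namespace Vale.Agent.P073.H523

open MeasureTheory Set Filter Topology Metric Vale.Agent.P073.St Vale.Agent.P073.AB
open Vale.Agent.P073.H194 (sInt up)
open Vale.Agent.P073.H83 (eLow mem_eLow)
open Vale.Agent.P073.H235 (rect SpecCount)
open scoped ENNReal

theorem mem_rect {a b k : Fin 3 → ℤ} :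
    k ∈ rect a b ↔ k 2 = a 2 ∧ ∀ j, j ≠ 2 → a j ≤ k j ∧ k j < b j := by
  unfold rect
  rw [Fintype.mem_piFinset]
  constructor
  · intro h
    refine ⟨?_, fun j hj => ?_⟩
    · have := h 2
      rwa [if_pos rfl, Finset.mem_singleton] at this
    · have := h j
      rwa [if_neg hj, Finset.mem_Ico] at this
  · rintro ⟨h1, h2⟩ j
    by_cases hj : j = 2
    · subst hj
      rw [if_pos rfl, Finset.mem_singleton]; exact h1
    · rw [if_neg hj, Finset.mem_Ico]; exact h2 j hj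

/-- the parent -/
def pr (d : ℕ) (k : Fin 3 → ℤ) : Fin 3 → ℤ := fun j => k j / 2 ^ d

theorem mem_eLow' {n n' : ℕ} {k₀ k : Fin 3 → ℤ} : k ∈ eLow ((n, k₀), 2) n' ↔
    k 2 = 2 ^ (n' - n) * k₀ 2 ∧ ∀ j, j ≠ 2 → 2 ^ (n' - n) * k₀ j ≤ k j ∧
      k j < 2 ^ (n' - n) * (k₀ j + 1) := by
  rw [mem_eLow]

theorem pr_eq {n n' : ℕ} {k₀ k : Fin 3 → ℤ} (h : k ∈ eLow ((n, k₀), 2) n') :
    pr (n' - n) k = k₀ := by
  rw [mem_eLow'] at h
  have hd : (0:ℤ) < 2 ^ (n' - n) := by positivity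
  funext j
  by_cases hj : j = 2
  · subst hj
    rw [pr, h.1, Int.mul_ediv_cancel_left _ hd.ne']
  · obtain ⟨h1, h2⟩ := h.2 j hj
    rw [pr]
    apply le_antisymm
    · have : k j / 2 ^ (n' - n) < k₀ j + 1 := by
        rw [Int.ediv_lt_iff_lt_mul hd, mul_comm]; exact h2
      omega
    · rw [Int.le_ediv_iff_mul_le hd, mul_comm]; exact h1

theorem mem_rect_up {n n' : ℕ} {a b k : Fin 3 → ℤ} :
    k ∈ rect (up n n' a) (up n n' b) ↔ ∃ k₀ ∈ rect a b, k ∈ eLow ((n, k₀), 2) n' := by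
  have hd : (0:ℤ) < 2 ^ (n' - n) := by positivity
  constructor
  · intro h
    rw [mem_rect] at h
    obtain ⟨h1, h2⟩ := h
    simp only [up] at h1 h2
    have hp2 : k 2 = 2 ^ (n' - n) * pr (n' - n) k 2 := by
      rw [pr, h1, Int.mul_ediv_cancel_left _ hd.ne']
    refine ⟨pr (n' - n) k, mem_rect.2 ⟨?_, fun j hj => ?_⟩, mem_eLow'.2 ⟨hp2, fun j hj => ?_⟩⟩
    · rw [pr, h1, Int.mul_ediv_cancel_left _ hd.ne']
    · obtain ⟨h3, h4⟩ := h2 j hj
      rw [pr, Int.le_ediv_iff_mul_le hd, Int.ediv_lt_iff_lt_mul hd]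
      constructor
      · rw [mul_comm]; exact h3
      · rw [mul_comm]; exact h4
    · rw [pr]
      constructor
      · exact Int.mul_ediv_self_le hd.ne'
      · exact Int.lt_mul_ediv_self_add hd |>.trans_eq (by ring)
  · rintro ⟨k₀, h0, h⟩
    rw [mem_rect] at h0
    rw [mem_eLow'] at h
    rw [mem_rect]
    simp only [up]
    refine ⟨by rw [h.1, h0.1], fun j hj => ?_⟩
    obtain ⟨h1, h2⟩ := h.2 j hj
    obtain ⟨h3, h4⟩ := h0.2 j hj
    constructor
    · exact (mul_le_mul_of_nonneg_left h3 hd.le).trans h1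
    · exact h2.trans_le (mul_le_mul_of_nonneg_left (by omega) hd.le)

theorem rect_up_eq (n n' : ℕ) (a b : Fin 3 → ℤ) :
    rect (up n n' a) (up n n' b) = (rect a b).biUnion fun k₀ => eLow ((n, k₀), 2) n' := by
  ext k
  rw [mem_rect_up, Finset.mem_biUnion]

theorem disj_eLow (n n' : ℕ) (S : Set (Fin 3 → ℤ)) :
    S.PairwiseDisjoint fun k₀ => eLow ((n, k₀), (2 : Fin 3)) n' := by
  intro k₀ _ k₁ _ hne
  rw [Function.onFun, Finset.disjoint_left]
  intro k h0 h1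
  exact hne ((pr_eq h0).symm.trans (pr_eq h1))

theorem card_eLow' (n n' : ℕ) (k₀ : Fin 3 → ℤ) : (eLow ((n, k₀), 2) n').card = 4 ^ (n' - n) := by
  unfold eLow
  rw [Fintype.card_piFinset, ← Finset.mul_prod_erase _ _ (Finset.mem_univ (2 : Fin 3)), if_pos rfl,
    Finset.card_singleton, one_mul]
  have h1 : ∀ j ∈ Finset.univ.erase (2 : Fin 3),
      (if j = 2 then ({2 ^ (n' - n) * k₀ j} : Finset ℤ) else
      Finset.Ico (2 ^ (n' - n) * k₀ j) (2 ^ (n' - n) * (k₀ j + 1))).card = 2 ^ (n' - n) := by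
    intro j hj
    rw [if_neg (Finset.ne_of_mem_erase hj), Int.card_Ico]
    have : 2 ^ (n' - n) * (k₀ j + 1) - 2 ^ (n' - n) * k₀ j = 2 ^ (n' - n) := by ring
    rw [this]
    have h2 : ((2:ℤ) ^ (n' - n)) = ((2 ^ (n' - n) : ℕ) : ℤ) := by push_cast; rfl
    rw [h2, Int.toNat_natCast]
  rw [Finset.prod_congr rfl h1, Finset.prod_const, Finset.card_erase_of_mem (Finset.mem_univ _)]
  simp only [Finset.card_univ, Fintype.card_fin]
  rw [← pow_mul, show (4:ℕ) = 2 ^ 2 by norm_num, ← pow_mul, mul_comm]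

theorem card_rect_up (n n' : ℕ) (a b : Fin 3 → ℤ) :
    (rect (up n n' a) (up n n' b)).card = (rect a b).card * 4 ^ (n' - n) := by
  rw [rect_up_eq, Finset.card_biUnion (fun x hx y hy h => disj_eLow n n' univ trivial trivial h),
    Finset.sum_congr rfl fun k _ => card_eLow' n n' k, Finset.sum_const, smul_eq_mul]

theorem up_up {m n n' : ℕ} (h : m ≤ n) (h' : n ≤ n') (a : Fin 3 → ℤ) :
    up n n' (up m n a) = up m n' a := by
  funext j
  simp only [up]
  rw [← mul_assoc, ← pow_add]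
  congr 2
  omega

/-- a small square in a big square -/
theorem mem_eLow_of_sub {v : V} {n n' : ℕ} (h : n ≤ n') {k₀ k : Fin 3 → ℤ}
    (hs : squ v ((n', k), 2) ⊆ squ v ((n, k₀), 2)) : k ∈ eLow ((n, k₀), 2) n' := by
  have hp : (0:ℝ) < 2 ^ n := by positivity
  have hp' : (0:ℝ) < 2 ^ n' := by positivity
  have hsp := H83.two_pow_split h
  have hd : (0:ℝ) < 2 ^ (n' - n) := by positivity
  -- the lower and the upper corner
  have h1 := hs (H83.pt_mem_squ v ((n', k), 2))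
  set y : V := fun j => if j = 2 then v 2 + k 2 / 2 ^ n' else v j + (k j + 1) / 2 ^ n' with hy
  have hyy : y ∈ squ v ((n', k), 2) := by
    refine ⟨by simp [hy], fun j hj => ?_⟩
    have hj' : j ≠ 2 := hj
    simp only [hy, if_neg hj']
    refine ⟨?_, le_refl _⟩
    have : (k j : ℝ) / 2 ^ n' ≤ (k j + 1) / 2 ^ n' := by gcongr; linarith
    linarith
  have h2 := hs hyy
  rw [mem_eLow']
  refine ⟨?_, fun j hj => ?_⟩
  · have h3 : v 2 + (k 2 : ℝ) / 2 ^ n' = v 2 + k₀ 2 / 2 ^ n := h1.1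
    have h4 : (k 2 : ℝ) = 2 ^ (n' - n) * k₀ 2 := by
      have h5 := add_left_cancel h3
      rw [div_eq_div_iff hp'.ne' hp.ne', hsp] at h5
      have h6 : (k 2 : ℝ) * 2 ^ n = (2 ^ (n' - n) * k₀ 2) * 2 ^ n := by linarith
      exact mul_right_cancel₀ hp.ne' h6
    exact_mod_cast h4
  · have h3 : v j + (k₀ j : ℝ) / 2 ^ n ≤ v j + k j / 2 ^ n' := (h1.2 j hj).1
    have h4 : y j ≤ v j + ((k₀ j : ℝ) + 1) / 2 ^ n := (h2.2 j hj).2
    simp only [hy, if_neg hj] at h4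
    have h5 : (k₀ j : ℝ) / 2 ^ n ≤ k j / 2 ^ n' := by linarith
    have h6 : ((k j : ℝ) + 1) / 2 ^ n' ≤ ((k₀ j : ℝ) + 1) / 2 ^ n := by linarith
    rw [div_le_div_iff₀ hp hp', hsp] at h5
    rw [div_le_div_iff₀ hp' hp, hsp] at h6
    have h7 : (2:ℝ) ^ (n' - n) * k₀ j ≤ k j := by
      have : (2 ^ (n' - n) * k₀ j) * 2 ^ n ≤ (k j : ℝ) * 2 ^ n := by linarith
      exact le_of_mul_le_mul_right this hp
    have h8 : (k j : ℝ) + 1 ≤ 2 ^ (n' - n) * (k₀ j + 1) := by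
      have : ((k j : ℝ) + 1) * 2 ^ n ≤ (2 ^ (n' - n) * (k₀ j + 1)) * 2 ^ n := by linarith
      exact le_of_mul_le_mul_right this hp
    have h7' : 2 ^ (n' - n) * k₀ j ≤ k j := by exact_mod_cast h7
    have h8' : k j + 1 ≤ 2 ^ (n' - n) * (k₀ j + 1) := by exact_mod_cast h8
    exact ⟨h7', by omega⟩

/-- **[COUNT]** -/
theorem specCount : SpecCount := by
  intro v m n₃ nS α β hm hn
  refine ⟨?_, ?_, ?_, ?_⟩
  · rw [card_rect_up]
    push_cast
    have h4 : (4:ℝ) ^ n₃ = 4 ^ (n₃ - m) * 4 ^ m := by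
      rw [← pow_add, Nat.sub_add_cancel hm]
    rw [h4]
    field_simp
  · rintro k ⟨k₀, hk₀, hs⟩
    exact mem_rect_up.2 ⟨k₀, hk₀, mem_eLow_of_sub hm hs⟩
  · intro H _
    rw [rect_up_eq, Finset.sum_biUnion (disj_eLow m n₃ _)]
    refine Finset.sum_congr rfl fun k _ => ?_
    exact (H83.sInt_split v ((m, k), 2) hm H).symm
  · have hup : ∀ a, up n₃ nS (up m n₃ a) = up m nS a := up_up hm hn
    refine ⟨pr (nS - n₃), fun k hk => ?_, fun k₃ hk₃ => ?_⟩
    · rw [← hup, ← hup, mem_rect_up] at hk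
      obtain ⟨k₀, h0, h1⟩ := hk
      rw [pr_eq h1]
      exact ⟨h0, H83.squ_sub (s := ((n₃, k₀), 2)) hn h1⟩
    · have h1 : ((rect (up m nS α) (up m nS β)).filter fun k => pr (nS - n₃) k = k₃) ⊆
          eLow ((n₃, k₃), 2) nS := by
        intro k hk
        rw [Finset.mem_filter, ← hup, ← hup, mem_rect_up] at hk
        obtain ⟨⟨k₀, h0, h2⟩, h3⟩ := hk
        rw [← h3, pr_eq h2]
        exact h2
      have h2 := Finset.card_le_card h1
      rw [card_eLow'] at h2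
      have h3 : (((rect (up m nS α) (up m nS β)).filter fun k => pr (nS - n₃) k = k₃).card : ℝ) ≤
          4 ^ (nS - n₃) := by exact_mod_cast h2
      have h4 : (4:ℝ) ^ nS = 4 ^ (nS - n₃) * 4 ^ n₃ := by
        rw [← pow_add, Nat.sub_add_cancel hn]
      rw [h4, div_le_div_iff₀ (by positivity) (by positivity)]
      have h5 : (0:ℝ) < 4 ^ n₃ := by positivity
      nlinarith

end Vale.Agent.P073.H523
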