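import Vale.Agent.P073.H687.LenSeg

/-!
# P073: the integral of the derivative of a conical curve is at most its length
-/

open Set Metric Topology Filter Module MeasureTheory
open scoped ENNReal

namespace Vale.Agent.P073.H523

open Vale.Agent.P073.St (V euc)
open Vale.Agent.P073.SQ (ev)
open Vale.Agent.P073.AB
open Vale.Agent.P073.H73 (onSeg segP)
open Vale.Agent.P073.H687 (lint_add onSeg_segP)
open _root_.P073 (ConHomeo ConicalOn)
open _root_.P073.Net (len euc_nonneg euc_le euc_smul len_add conical_left conical_right)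
open _root_.P073.Gauge (gam)
open _root_.P073.Gauge.C110 (mem_edge_iff ev_apply)
open _root_.P073.Gauge.O407 (jInt eInt_eq deriv_gam)

theorem ofReal_euc_le_len {q : ℝ → V} {s : Set ℝ} {x y : ℝ} (hx : x ∈ s) (hy : y ∈ s) :
    ENNReal.ofReal (euc (q x - q y)) ≤ len q s := by
  have h := eVariationOn.edist_le
    (fun t => (WithLp.toLp 2 (q t) : EuclideanSpace ℝ (Fin 3))) hx hy
  refine le_trans (le_of_eq ?_) h
  rw [edist_dist, dist_eq_norm, ← WithLp.toLp_sub, EuclideanSpace.norm_eq]
  congr 1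
  unfold euc
  congr 1
  refine Finset.sum_congr rfl fun i _ => ?_
  simp

/-- an affine piece -/
theorem affine_piece_le_len {q : ℝ → V} {x y : ℝ} {p w : V} (hxy : x ≤ y)
    (h : ∀ t ∈ Icc x y, q t = p + t • w) :
    ∫⁻ t in Icc x y, ENNReal.ofReal (euc (deriv q t)) ≤ len q (Icc x y) := by
  have h3 : ∫⁻ t in Icc x y, ENNReal.ofReal (euc (deriv q t)) =
      ENNReal.ofReal ((y - x) * euc w) := by
    rw [← restrict_Ioo_eq_restrict_Icc]
    have h4 : ∫⁻ t in Ioo x y, ENNReal.ofReal (euc (deriv q t)) =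
        ∫⁻ _t in Ioo x y, ENNReal.ofReal (euc w) := by
      apply setLIntegral_congr_fun measurableSet_Ioo
      intro t ht
      have h5 : q =ᶠ[𝓝 t] fun t => p + t • w := by
        filter_upwards [isOpen_Ioo.mem_nhds ht] with s hs
        exact h s (Ioo_subset_Icc_self hs)
      have h6 : HasDerivAt (fun t : ℝ => p + t • w) ((1:ℝ) • w) t :=
        ((hasDerivAt_id t).smul_const w).const_add p
      show ENNReal.ofReal (euc (deriv q t)) = ENNReal.ofReal (euc w)
      rw [h5.deriv_eq, h6.deriv, one_smul]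
    rw [h4, setLIntegral_const, Real.volume_Ioo, ← ENNReal.ofReal_mul (euc_nonneg _), mul_comm]
  rw [h3]
  have h7 := ofReal_euc_le_len (q := q) (s := Icc x y) (right_mem_Icc.2 hxy) (left_mem_Icc.2 hxy)
  have h8 : q y - q x = (y - x) • w := by
    rw [h y (right_mem_Icc.2 hxy), h x (left_mem_Icc.2 hxy)]
    module
  rwa [h8, euc_smul, abs_of_nonneg (by linarith)] at h7

/-- **the length of a conical curve** (Euclidean norms), lower bound -/
theorem le_conical_len {q : ℝ → V} {a b : ℝ} (hab : a ≤ b) (hq : ConicalOn q (Icc a b)) :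
    ∫⁻ t in Icc a b, ENNReal.ofReal (euc (deriv q t)) ≤ len q (Icc a b) := by
  set S : Set ℝ := {x | x ∈ Icc a b ∧
    ∫⁻ t in Icc a x, ENNReal.ofReal (euc (deriv q t)) ≤ len q (Icc a x)} with hS
  have haS : a ∈ S := by
    refine ⟨⟨le_refl _, hab⟩, ?_⟩
    have : ∫⁻ t in Icc a a, ENNReal.ofReal (euc (deriv q t)) = 0 := by
      rw [Icc_self]
      simp
    rw [this]; exact bot_le
  have hbdd : BddAbove S := ⟨b, fun x hx => hx.1.2⟩
  set c := sSup S with hc
  have hac : a ≤ c := le_csSup hbdd haS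
  have hcb : c ≤ b := csSup_le ⟨a, haS⟩ fun x hx => hx.1.2
  have step : ∀ x y, a ≤ x → x ≤ y → 
      (∫⁻ t in Icc a x, ENNReal.ofReal (euc (deriv q t))) ≤ len q (Icc a x) →
      (∫⁻ t in Icc x y, ENNReal.ofReal (euc (deriv q t))) ≤ len q (Icc x y) →
      ∫⁻ t in Icc a y, ENNReal.ofReal (euc (deriv q t)) ≤ len q (Icc a y) := by
    intro x y hx hxy h1 h2
    rw [len_add hx hxy, lint_add hx hxy]
    exact add_le_add h1 h2
  have hcS : c ∈ S := by
    refine ⟨⟨hac, hcb⟩, ?_⟩
    rcases hac.eq_or_lt with h | h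
    · rw [← h]; exact haS.2
    · obtain ⟨r, hr, hra, w, hw⟩ := conical_left hq ⟨hac, hcb⟩ h
      obtain ⟨x, hxS, hx⟩ := exists_lt_of_lt_csSup ⟨a, haS⟩ (show c - r < c by linarith)
      have hxc : x ≤ c := le_csSup hbdd hxS
      refine step x c hxS.1.1 hxc hxS.2 (affine_piece_le_len (p := q c + c • w) (w := -w) hxc ?_)
      intro t ht
      have := hw (c - t) ⟨by linarith [ht.2], by linarith [ht.1]⟩
      rw [sub_sub_cancel] at this
      rw [this]
      module
  rcases hcb.eq_or_lt with h | h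
  · rw [← h]; exact hcS.2
  · exfalso
    obtain ⟨r, hr, hrb, w, hw⟩ := conical_right hq ⟨hac, hcb⟩ h
    have : c + r ∈ S := by
      refine ⟨⟨by linarith, hrb⟩, ?_⟩
      refine step c (c + r) hac (by linarith) hcS.2
        (affine_piece_le_len (p := q c - c • w) (w := w) (by linarith) ?_)
      intro t ht
      have := hw (t - c) ⟨by linarith [ht.1], by linarith [ht.2]⟩
      rw [add_sub_cancel] at this
      rw [this]
      module
    have := le_csSup hbdd this
    linarith

variable {Ω Λ : Set V}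

/-- the Euclidean form -/
theorem le_len_onSeg_euc (h : ConHomeo Ω Λ) {v : V} {e : Idx × Fin 3} (he : edge v e ⊆ Ω) :
    eInt v e (fun x => ENNReal.ofReal (euc (lineDeriv ℝ h.toFun x (ev e.2)))) ≤
      len (onSeg h.toFun (segP v e)) (Icc 0 1) := by
  have hmaps : MapsTo (gam v e) (Icc 0 1) Ω := fun t ht => he (mem_edge_iff.2 ⟨t, ht, rfl⟩)
  have hg : gam v e = fun t => AffineMap.lineMap (k := ℝ) (segP v e).1 (segP v e).2 t := by
    funext t
    rw [AffineMap.lineMap_apply]
    simp only [gam, segP, vsub_eq_sub, vadd_eq_add, add_sub_cancel_left]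
    rw [add_comm]
  have hcon : ConicalOn (fun t => h.toFun (gam v e t)) (Icc 0 1) := by
    refine ConicalOn.comp (g := h.toFun) (h := gam v e) h.conical ?_ hmaps ?_
    · rw [hg]
      exact _root_.P073.conicalOn_of_affine _ (_root_.P073.Convex.conicalSet (convex_Icc 0 1))
    · rw [hg]
      exact AffineMap.lineMap_continuous.continuousOn
  rw [onSeg_segP]
  refine le_trans ?_ (le_conical_len zero_le_one hcon)
  rw [eInt_eq, jInt, ← lintegral_const_mul' _ _ ENNReal.ofReal_ne_top]
  refine lintegral_mono fun t => ?_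
  rw [deriv_gam, euc_smul, abs_of_nonneg (by positivity), ENNReal.ofReal_mul (by positivity)]

/-- **the integral of the derivative is at most the length** -/
theorem le_len_onSeg (h : ConHomeo Ω Λ) {v : V} {e : Idx × Fin 3} (he : edge v e ⊆ Ω) :
    eInt v e (fun x => ENNReal.ofReal ‖lineDeriv ℝ h.toFun x (ev e.2)‖) ≤
      len (onSeg h.toFun (segP v e)) (Icc 0 1) := by
  refine le_trans ?_ (le_len_onSeg_euc h he)
  refine H333.eInt_mono' v e fun x => ENNReal.ofReal_le_ofReal ?_
  rw [pi_norm_le_iff_of_nonneg (euc_nonneg _)]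
  intro i
  rw [Real.norm_eq_abs, ← Real.sqrt_sq_eq_abs]
  unfold euc
  apply Real.sqrt_le_sqrt
  exact Finset.single_le_sum (f := fun i => (lineDeriv ℝ h.toFun x (ev e.2)) i ^ 2)
    (fun i _ => sq_nonneg _) (Finset.mem_univ i)

end Vale.Agent.P073.H523
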