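import Vale.Agent.P073.H234.Cleaned
import Vale.Agent.P073.H953.AltLen
import Vale.Agent.P073.H523.LenLow

/-!
# P073, P2 (exponent two, rank three): [K5], the lengths of the edges of the partition

After the retractions (`h'`) and the collapse (`Tc`) of the selected neck cubes, for all the edges
of the partition.
-/

open Set Metric Topology Filter MeasureTheory
open scoped ENNReal

namespace Vale.Agent.P073.H523

open Vale.Agent.P073.St (V Mat euc)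
open Vale.Agent.P073.SQ (ev)
open Vale.Agent.P073.AB
open Vale.Agent.P073.H234
open Vale.Agent.P073.H190 (IsColB)
open Vale.Agent.P073.H73 (onSeg segP)
open _root_.P073 (ConHomeo)
open _root_.P073.Net (dyc dyo len)

variable {p : ℝ} {ε : ℝ≥0∞} {θ M κ c₀ t₀ δ₀ ε₁ β σ : ℝ} {j : ℕ} {Ω Λ : Set V} {f : V → V}
  {F : V → Mat} {T : Set V} {v : V} {m : ℕ}

theorem dyo_sub_of_dyc {v : V} {m m' : ℕ} {z z' : Fin 3 → ℤ} (h : dyc v m' z' ⊆ dyc v m z) :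
    dyo v m' z' ⊆ dyo v m z := by
  rw [← _root_.P073.Gauge.C110.interior_dyc, ← _root_.P073.Gauge.C110.interior_dyc]
  exact interior_mono h

/-- the edges of the partition do not meet the open selected cubes -/
theorem edge_notMem_qC {I : Set Idx} (hI : Part Ω v I) {M' n N : ℕ} {J' : Finset (Fin 3 → ℤ)}
    (hTI : ∀ u, Tch v n N J' u → ((N, u) : Idx) ∈ I) {s : Idx × Fin 3} (hs : Sel v M' n N J' s)
    {e : Idx × Fin 3} {q : Idx} (hq : q ∈ I) (he : EdgeOf e q) {x : V} (hx : x ∈ edge v e) :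
    x ∉ qC v s := by
  obtain ⟨h1, z, hz, u, u', hu, hu', h2, h3⟩ := hs
  have key : ∀ u, Touch v n N z u → x ∉ dyo v N u := by
    intro u hu hxu
    have h4 : ((N, u) : Idx) ∈ I := hTI u ⟨z, hz, hu⟩
    by_cases h5 : ((N, u) : Idx) = q
    · have h6 : e.1.1 = N := by rw [he.1, ← h5]
      exact edge_notMem_dyo h6 hx u hxu
    · exact Set.disjoint_left.1 (hI.disj _ h4 _ hq h5) hxu (Gr.edge_subset_dyc he hx)
  rintro (h4 | h4)
  · rw [h1] at h4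
    exact key u hu (dyo_sub_of_dyc h2 h4)
  · rw [h1] at h4
    exact key u' hu' (dyo_sub_of_dyc h3 h4)

/-- **[K5]** the strength of the collapse can be chosen such that the lengths of all edges of the
partition are controlled by `f`. -/
theorem exists_len {C : P2Cells p ε θ M κ c₀ t₀ δ₀ j Ω Λ f F T v m}
    {Nk : Necks θ M β σ f v m j C.J C.A} {n N : ℕ} {J' : Finset (Fin 3 → ℤ)}
    {h₀ h' : ConHomeo Ω Λ} {G : Finset Nk.γ} (hσ0 : 0 ≤ σ) (hσ : σ ≤ 1 / 48)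
    (rat : RatGood v Ω f F) (hGΛ : ∀ g ∈ G, closedBall (Nk.b g) (Nk.ρ g) ⊆ Λ)
    (hdich : ∀ x ∈ Ω, (∀ i ∈ selI Nk n N J', x ∉ qC v (Nk.s i)) →
      h'.toFun x = h₀.toFun x ∨ ∃ g ∈ G, h'.toFun x ∈ Metric.ball (Nk.b g) (Nk.ρ g))
    {I : Set Idx} (hI : Part Ω v I) (hTI : ∀ u, Tch v n N J' u → ((N, u) : Idx) ∈ I)
    {δ : Idx × Fin 3 → ℝ} (hδ : ∀ e, 0 < δ e)
    (h0F : ∀ e : Idx × Fin 3, (∃ q ∈ I, EdgeOf e q) →
      eInt v e (fun x => ENNReal.ofReal ‖lineDeriv ℝ h₀.toFun x (ev e.2) - cl (F x) (ev e.2)‖) ≤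
        ENNReal.ofReal (δ e / 16)) :
    ∃ l₁ > 0, ∀ l₀, 0 ≤ l₀ → l₀ ≤ l₁ → ∀ (h₁ : ConHomeo Ω Λ) (Tc : V → V),
      (∀ x ∈ Ω, h₁.toFun x = Tc (h'.toFun x)) →
      IsColB Nk.b Nk.ρ (fun _ => 1 / 2 ^ (m + j)) G σ l₀ Tc →
      ∀ e : Idx × Fin 3, (∃ q ∈ I, EdgeOf e q) →
        eInt v e (fun x => ENNReal.ofReal ‖lineDeriv ℝ h₁.toFun x (ev e.2)‖) ≤
          8 * eInt v e (fun x => ENNReal.ofReal ‖cl (F x) (ev e.2)‖) + ENNReal.ofReal (δ e) := by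
  have hsub : ∀ e : Idx × Fin 3, (∃ q ∈ I, EdgeOf e q) → edge v e ⊆ Ω := by
    rintro e ⟨q, hq, h1⟩
    exact (Gr.edge_subset_dyc h1).trans (hI.sub q hq)
  obtain ⟨l₁, hl₁, H⟩ := _root_.P073.H953.exists_iota_edges
    (fun i _ j _ hij => Nk.bdisj i j hij) hGΛ hI (P := fun e => ∃ q ∈ I, EdgeOf e q)
    (fun e he => he) h' (g := h₀.toFun) h₀.cont
    (fun e ⟨q, hq, he⟩ x hx => (hdich x (hsub e ⟨q, hq, he⟩ hx) fun i hi =>
      edge_notMem_qC hI hTI hi hq he hx).imp_right fun ⟨g, hg, h1⟩ =>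
        ⟨g, hg, Metric.ball_subset_closedBall h1⟩)
    (δ := fun e => δ e / 2) (fun e => by have := hδ e; positivity)
  refine ⟨l₁, hl₁, fun l₀ hl0 hl h₁ Tc heq hT e he => ?_⟩
  have h1 := H l₀ hl0 hl (D := fun _ => 1 / 2 ^ (m + j)) (ε := σ) (T := Tc) hσ0 hT e he
  have h2 : len (onSeg h₁.toFun (segP v e)) (Icc 0 1) =
      len (onSeg (fun x => Tc (h'.toFun x)) (segP v e)) (Icc 0 1) := by
    rw [H687.onSeg_segP, H687.onSeg_segP]
    refine _root_.P073.Net.len_congr fun t ht => ?_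
    exact heq _ (hsub e he (_root_.P073.Gauge.C110.mem_edge_iff.2 ⟨t, ht, rfl⟩))
  have h3 := le_len_onSeg h₁ (hsub e he)
  have h4 := H687.len_onSeg_le h₀ (hsub e he)
  have h5 : eInt v e (fun x => ENNReal.ofReal ‖lineDeriv ℝ h₀.toFun x (ev e.2)‖) ≤
      eInt v e (fun x => ENNReal.ofReal ‖cl (F x) (ev e.2)‖) + ENNReal.ofReal (δ e / 16) := by
    have h6 : eInt v e (fun x => ENNReal.ofReal ‖lineDeriv ℝ h₀.toFun x (ev e.2)‖) ≤
        eInt v e (fun x => ENNReal.ofReal ‖lineDeriv ℝ h₀.toFun x (ev e.2) - cl (F x) (ev e.2)‖ +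
          ENNReal.ofReal ‖cl (F x) (ev e.2)‖) := by
      refine H333.eInt_mono' v e fun x => ?_
      rw [← ENNReal.ofReal_add (norm_nonneg _) (norm_nonneg _)]
      refine ENNReal.ofReal_le_ofReal ?_
      have := norm_add_le (lineDeriv ℝ h₀.toFun x (ev e.2) - cl (F x) (ev e.2))
        (cl (F x) (ev e.2))
      rwa [sub_add_cancel] at this
    refine h6.trans ?_
    rw [S293.eInt_add]
    · rw [add_comm]
      exact add_le_add le_rfl (h0F e he)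
    · have := S293.aemeas_pow rat (hsub e he) 0 1 1
      simpa using this
  have hδe := hδ e
  calc eInt v e (fun x => ENNReal.ofReal ‖lineDeriv ℝ h₁.toFun x (ev e.2)‖)
      ≤ ENNReal.ofReal (2 * (1 + 48 * σ)) * len (onSeg h₀.toFun (segP v e)) (Icc 0 1) +
          ENNReal.ofReal (δ e / 2) := by rw [h2] at h3; exact h3.trans h1
    _ ≤ 4 * (2 * (eInt v e (fun x => ENNReal.ofReal ‖cl (F x) (ev e.2)‖) +
          ENNReal.ofReal (δ e / 16))) + ENNReal.ofReal (δ e / 2) := by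
        gcongr
        · rw [show (4 : ℝ≥0∞) = ENNReal.ofReal 4 by norm_num]
          apply ENNReal.ofReal_le_ofReal
          linarith
        · exact h4.trans (by gcongr)
    _ = 8 * eInt v e (fun x => ENNReal.ofReal ‖cl (F x) (ev e.2)‖) +
          (ENNReal.ofReal (8 * (δ e / 16)) + ENNReal.ofReal (δ e / 2)) := by
        rw [ENNReal.ofReal_mul (by norm_num), show ENNReal.ofReal 8 = 8 by norm_num]
        ring
    _ = 8 * eInt v e (fun x => ENNReal.ofReal ‖cl (F x) (ev e.2)‖) + ENNReal.ofReal (δ e) := by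
        rw [← ENNReal.ofReal_add (by positivity) (by positivity)]
        congr 2
        ring

/-- the neck cubes are in the target -/
theorem ball_sub_target {C : P2Cells p ε θ M κ c₀ t₀ δ₀ j Ω Λ f F T v m}
    (Nk : Necks θ M β σ f v m j C.J C.A) (hβ : β ≤ 1 / 8) (hσ : σ ≤ 1 / 48)
    (hc₀ : 4 / 2 ^ (m + j) < c₀) {g : Nk.γ} (hρ : Nk.ρ g ≤ σ / 2 ^ (m + j)) :
    closedBall (Nk.b g) (Nk.ρ g) ⊆ Λ := by
  intro y hy
  rw [mem_closedBall, dist_eq_norm] at hy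
  obtain ⟨z, hz, s, hs, x, hx, h1⟩ := Nk.near g
  have h2 : c₀ ≤ infDist (C.A z x) Λᶜ :=
    (C.dist z hz x ⟨x, hs.sub hx, by simp; positivity⟩).2.2
  by_contra hcon
  have h3 : infDist (C.A z x) Λᶜ ≤ ‖C.A z x - y‖ := by
    rw [← dist_eq_norm]
    exact infDist_le_dist_of_mem hcon
  have h4 : ‖C.A z x - y‖ ≤ ‖Nk.b g - C.A z x‖ + ‖y - Nk.b g‖ := by
    have := norm_sub_le (C.A z x - Nk.b g) (y - Nk.b g)
    rw [sub_sub_sub_cancel_right, norm_sub_rev _ (Nk.b g)] at this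
    exact this
  have hr : (0:ℝ) < 1 / 2 ^ (m + j) := by positivity
  have e1 : 2 * β / 2 ^ (m + j) = 2 * β * (1 / 2 ^ (m + j)) := by ring
  have e2 : σ / 2 ^ (m + j) = σ * (1 / 2 ^ (m + j)) := by ring
  have e3 : 4 / 2 ^ (m + j) = 4 * (1 / 2 ^ (m + j) : ℝ) := by ring
  rw [e1] at h1
  rw [e2] at hρ
  rw [e3] at hc₀
  have h5 : (2 * β + σ) * (1 / 2 ^ (m + j)) ≤ 4 * (1 / 2 ^ (m + j) : ℝ) :=
    mul_le_mul_of_nonneg_right (by linarith) hr.le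
  nlinarith

/-- **[K5]**, the form for the assembly: `K'` is any collapse of `h'` (with an arbitrary strength
`l'`). -/
theorem exists_len_cleaned {C : P2Cells p ε θ M κ c₀ t₀ δ₀ j Ω Λ f F T v m}
    {Nk : Necks θ M β σ f v m j C.J C.A} {n N : ℕ} {J' : Finset (Fin 3 → ℤ)}
    (hβ : β ≤ 1 / 8) (hσ0 : 0 ≤ σ) (hσ : σ ≤ 1 / 48) (hc₀ : 4 / 2 ^ (m + j) < c₀)
    {η l' : ℝ} {o : Nk.γ → V} {h₀ h' h₁' : ConHomeo Ω Λ} {Tc' : V → V} {G : Finset Nk.γ}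
    (K' : Cleaned C Nk n N J' η l' o h₀ h' h₁' Tc' G) (rat : RatGood v Ω f F)
    {I : Set Idx} (hI : Part Ω v I) (hTI : ∀ u, Tch v n N J' u → ((N, u) : Idx) ∈ I)
    {δ : Idx × Fin 3 → ℝ} (hδ : ∀ e, 0 < δ e)
    (h0F : ∀ e : Idx × Fin 3, (∃ q ∈ I, EdgeOf e q) →
      eInt v e (fun x => ENNReal.ofReal ‖lineDeriv ℝ h₀.toFun x (ev e.2) - cl (F x) (ev e.2)‖) ≤
        ENNReal.ofReal (δ e / 16)) :
    ∃ l₁ > 0, ∀ l₀, 0 ≤ l₀ → l₀ ≤ l₁ → ∀ (Tc : V → V) (h₁ : ConHomeo Ω Λ),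
      Cleaned C Nk n N J' η l₀ o h₀ h' h₁ Tc G →
      ∀ e : Idx × Fin 3, (∃ q ∈ I, EdgeOf e q) →
        eInt v e (fun x => ENNReal.ofReal ‖lineDeriv ℝ h₁.toFun x (ev e.2)‖) ≤
          8 * eInt v e (fun x => ENNReal.ofReal ‖cl (F x) (ev e.2)‖) + ENNReal.ofReal (δ e) := by
  obtain ⟨l₁, hl₁, H⟩ := exists_len (C := C) (Nk := Nk) (n := n) (N := N) (J' := J') (G := G)
    hσ0 hσ rat (fun g _ => ball_sub_target Nk hβ hσ hc₀ (K'.ρle g)) K'.dich hI hTI hδ h0F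
  exact ⟨l₁, hl₁, fun l₀ h0 hl Tc h₁ K => H l₀ h0 hl h₁ Tc K.eq K.col⟩

end Vale.Agent.P073.H523
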