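import Vale.Agent.P073.H732.BeamParts
import Vale.Agent.P073.H235.PreFlatA

/-!
# P073, rank one, `2 ≤ p < 3`, [BEAM-FIN]: the two inputs of the choice of the constants

* `POutB`, `SpecLineP`: the collapse near the image of the line, in dyadic form;
* `SpecBuildB`: the data `PreBeam` are built, under number hypotheses (twin of `preFlat_build`).
-/

namespace Vale.Agent.P073.H523

open MeasureTheory Set Filter Topology Metric Vale.Agent.P073.St Vale.Agent.P073.AB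
open Vale.Agent.P073.SQ (ev)
open Vale.Agent.P073.H194 (RgN cW)
open Vale.Agent.P073.H235 (Bx bm fl Co cmp cmpD P1 Kc)
open Vale.Agent.P073.H253 (rectN redgeN ledge BVData PreBeam)
open Vale.Agent.P073.H732 (upz)
open _root_.P073 (ConHomeo)
open scoped ENNReal

/-- the collapse near the image of the line (dyadic form of the conclusion of `SpecBeamCol`) -/
def POutB {p θ₁ θ₂ κ : ℝ} {m₀ : ℕ} {Λ : Set V} {f : V → V} {F : V → Mat}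
    (D : BVData p θ₁ θ₂ κ m₀ Λ f F) (z₀ z₁ : ℤ) (ε : ℝ) : Prop :=
  ∃ n₀ : ℕ, ∀ n₃ ≥ n₀, m₀ ≤ n₃ → ∃ (G : Finset ℤ) (mt₀ : ℕ) (K : Set V), K ⊆ Λ ∧ IsCompact K ∧
    G ⊆ Finset.Ico (upz m₀ n₃ z₀) (upz m₀ n₃ z₁) ∧
    (z₁ - z₀ : ℝ) / 2 ^ m₀ - (G.card : ℝ) / 2 ^ n₃ ≤ ε ∧
    ∀ mt ≥ mt₀, ∀ δ > 0, ∃ (T : ConHomeo Λ Λ) (r : ℝ), 0 < r ∧
      (∀ y ∈ Λ, y ∉ K → T.toFun y = y) ∧
      (∀ y ∈ Λ, ∀ y' ∈ Λ, ‖T.toFun y - T.toFun y'‖ ≤ 2 * ‖y - y'‖) ∧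
      (∀ y ∈ Λ, T.toFun y 0 = y 0) ∧
      ∀ k ∈ G, ∃ t : Fin 3 → ℤ,
        ∀ x ∈ edge D.v (ledge n₃ (upz m₀ n₃ D.B₁) (upz m₀ n₃ D.B₂) k),
        ∀ y ∈ Λ, ‖y - cmp (bm θ₁ θ₂) f x‖ ≤ r → ∀ j, j ≠ 0 →
          |T.toFun y j - t j / 2 ^ mt| ≤ δ / 2 ^ mt

/-- **[LINE-P]** -/
def SpecLineP (p : ℝ) : Prop :=
  ∀ ε : ℝ, 0 < ε → ∃ κP > 0, ∀ (θ₁ θ₂ κ : ℝ) (m₀ : ℕ) (Λ : Set V) (f : V → V) (F : V → Mat),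
    0 < θ₁ → 0 < θ₂ → 0 < κ → κ ≤ κP → St.IsBoundedDomain Λ →
    St.IsHomeo (Bx (bm θ₁ θ₂)) Λ (cmp (bm θ₁ θ₂) f) →
    ∀ (D : BVData p θ₁ θ₂ κ m₀ Λ f F) (z₀ z₁ : ℤ), z₀ < z₁ → (z₁ - z₀ : ℝ) / 2 ^ m₀ ≤ 1 →
    (∀ k ∈ Finset.Ico z₀ z₁, edge D.v (ledge m₀ D.B₁ D.B₂ k) ⊆ Bx (bm θ₁ θ₂)) →
    POutB D z₀ z₁ ε

/-- **[BUILD-B]** the data are built. Measures: the beam, its frame, the squares of the rectangle,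
the squares near its ends, the bad edges of the line. -/
def SpecBuildB (p : ℝ) : Prop :=
  ∀ (C θ₁ θ₂ ν₁ ν τ ε δ κ εP η b : ℝ), 0 < θ₁ → θ₁ ≤ 1 / 4 → 0 < θ₂ → θ₂ ≤ 1 / 4 → 0 < ν₁ →
    ν₁ ≤ ν / 4 → 0 < ν → ν ≤ 1 / 4 → 0 < ε → 0 < δ → 0 < η → 0 < b → b ≤ 1 → 0 < κ →
    ∀ (m₀ : ℕ) (Λ : Set V) (f : V → V) (F : V → Mat), St.IsBoundedDomain Λ →
    St.IsHomeo (Bx (bm θ₁ θ₂)) Λ (cmp (bm θ₁ θ₂) f) → ∀ (D : BVData p θ₁ θ₂ κ m₀ Λ f F)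
    (α β : Fin 3 → ℤ), α 1 = D.B₁ → (∀ j, j ≠ 1 → α j < β j) →
    RgN 1 D.v m₀ α β ⊆ Bx (bm θ₁ θ₂) → (β 0 - α 0 : ℝ) / 2 ^ m₀ ≤ 1 →
    (β 2 - α 2 : ℝ) / 2 ^ m₀ ≤ 2 * θ₂ → D.B₂ ∈ Icc (α 2) (β 2) →
    (∀ k ∈ Finset.Ico (α 0) (β 0), edge D.v (ledge m₀ D.B₁ D.B₂ k) ⊆ RgN 1 D.v m₀ α β) →
    (∀ x ∈ Bx (fl θ₂) ∩ Co (fl θ₂) (ν₁ / 2) {0, 2}, ∀ j, j ≠ 1 →
      D.v j + α j / 2 ^ m₀ ≤ x j ∧ x j ≤ D.v j + β j / 2 ^ m₀) →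
    POutB D (α 0) (β 0) εP → 1 / 2 ^ m₀ ≤ τ →
    -- the bulk
    cW p 8 * (36 * (Kc p 5 * (ENNReal.ofReal (2 ^ p) * (ENNReal.ofReal κ +
      ENNReal.ofReal (4 * θ₁ * θ₂)))) + ENNReal.ofReal η) ≤ ENNReal.ofReal (C * θ₁ * θ₂) →
    -- the frame
    cW p 8 * (36 * (Kc p 5 * (ENNReal.ofReal (2 ^ p) * (ENNReal.ofReal κ +
      ENNReal.ofReal (64 * ν₁ * θ₁ * θ₂)))) + ENNReal.ofReal η) ≤
        ENNReal.ofReal (C * ν₁ * θ₁ * θ₂) →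
    -- the plane
    4 * cW p 8 * (Kc p 5 * (ENNReal.ofReal (2 ^ p) * (ENNReal.ofReal κ +
      ENNReal.ofReal (2 * θ₂))) + ENNReal.ofReal η) ≤ ENNReal.ofReal (C * θ₂) →
    -- the ends of the plane
    4 * cW p 8 * (Kc p 5 * (ENNReal.ofReal (2 ^ p) * (ENNReal.ofReal κ +
      ENNReal.ofReal (64 * ν * θ₂))) + ENNReal.ofReal η) ≤ ENNReal.ofReal (C * ν * θ₂) →
    -- the bad edges of the line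
    4 * cW p 8 * (Kc p 5 * (ENNReal.ofReal (2 ^ p) * (ENNReal.ofReal κ +
      ENNReal.ofReal εP)) + ENNReal.ofReal η) ≤ ENNReal.ofReal ε →
    4 ^ p * (κ + b) ≤ ε → 1149984 ≤ C →
    Nonempty (PreBeam p C θ₁ θ₂ ν₁ ν τ ε δ Λ f)

end Vale.Agent.P073.H523
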