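import Vale.Agent.P073.H523.LineP
import Vale.Agent.P073.H333.PreBeamB

/-!
# P073, rank one, `1 ≤ p < 3`: `SpecPreBeam p`, unconditionally
-/

namespace Vale.Agent.P073.H523

/-- **[BEAM-FIN]** -/
theorem specPreBeam {p : ℝ} (hp : 1 ≤ p) (hp3 : p < 3) : H253.SpecPreBeam p :=
  specPreBeam_ofW hp hp3 (H333.specBuildB hp hp3).weak (specLineW hp)

end Vale.Agent.P073.H523
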