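import Vale.Agent.P073.H79.EdgeLeb2
import Vale.Agent.P073.H83.Wt
import Vale.Agent.P073.H83.AeRep

/-!
# P073, block [P2g], [SQUARE-LEB]: the fine squares around almost every point

For `G` in `L^p` there is a sequence of generations along which, for a.e. origin `v` and a.e.
point `x`, the averages of `‖G - G x‖ ^ p` over the squares of generation `n + j` in the dyadic cube
of generation `n` containing `x` tend to zero (`n` in the sequence, `j` fixed).
-/

open Set Metric Topology Filter MeasureTheory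
open scoped ENNReal

namespace Vale.Agent.P073.H523

open Vale.Agent.P073.AB (Idx pt edge eInt squ cl)
open _root_.P073.Net (dyc dyo)
open Vale.Agent.P073.St (V Mat IsBoundedDomain IsSobolev)
open Vale.Agent.P073.SQ (ev)
open Vale.Agent.P073.H194 (idx sInt)

variable {E : Type*} [NormedAddCommGroup E]

/-- **(SQUARE-LEB)** at the point `x`, for the origin `v`, along the generations `nn`. -/
def SquLeb (p : ℝ) (v : V) (nn : ℕ → ℕ) (G : V → E) (x : V) : Prop :=
  ∀ (j : ℕ) (δ : ℝ≥0∞), δ ≠ 0 → ∀ᶠ l in atTop, ∀ s : Idx × Fin 3, s.1.1 = nn l + j →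
    squ v s ⊆ dyc v (nn l) (idx v (nn l) x) →
    sInt v s (fun y => ‖G y - G x‖ₑ ^ p) ≤ δ * ENNReal.ofReal ((1 / 2 ^ nn l) ^ 2)

theorem SquLeb.comp {p : ℝ} {v : V} {nn : ℕ → ℕ} {G : V → E} {x : V} (h : SquLeb p v nn G x)
    {φ : ℕ → ℕ} (hφ : StrictMono φ) : SquLeb p v (fun l => nn (φ l)) G x := fun j δ hδ =>
  hφ.tendsto_atTop.eventually (h j δ hδ)

/-- continuity of translations in `L^p` -/
theorem exists_shiftP {p : ℝ} (hp : 1 ≤ p) {G : V → E}
    (hG : MemLp G (ENNReal.ofReal p) volume) {ε : ℝ≥0∞} (hε : 0 < ε) :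
    ∃ δ > 0, ∀ h : V, ‖h‖ < δ → ∫⁻ x, ‖G (x + h) - G x‖ₑ ^ p ≤ ε := by
  have hp0 : 0 < p := by linarith
  set q : ℝ≥0∞ := ENNReal.ofReal p with hq
  have hqp : q.toReal = p := ENNReal.toReal_ofReal hp0.le
  have hq1 : 1 ≤ q := by
    rw [hq, ← ENNReal.ofReal_one]
    exact ENNReal.ofReal_le_ofReal hp
  have hq0 : q ≠ 0 := (zero_lt_one.trans_le hq1).ne'
  have hqt : q ≠ ∞ := ENNReal.ofReal_ne_top
  have : Fact (q ≠ ∞) := ⟨hqt⟩
  have : Fact (1 ≤ q) := ⟨hq1⟩
  set L : Lp E q (volume : Measure V) := hG.toLp G with hL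
  have hcont : Continuous fun c : V => (DomAddAct.mk c +ᵥ L : Lp E q (volume : Measure V)) := by
    have h1 : Continuous fun c : V => DomAddAct.mk c := DomAddAct.continuous_mk
    exact h1.vadd continuous_const
  have h0 : (DomAddAct.mk (0:V) +ᵥ L : Lp E q (volume : Measure V)) = L := by
    have : (DomAddAct.mk (0:V)) = 0 := rfl
    rw [this, zero_vadd]
  obtain ⟨r, hr0, hr⟩ : ∃ r : ℝ, 0 < r ∧ ENNReal.ofReal r ^ p ≤ ε := by
    obtain ⟨r, hr0, hr⟩ : ∃ r : ℝ, 0 < r ∧ ENNReal.ofReal r ≤ ε := by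
      by_cases hε' : ε = ∞
      · exact ⟨1, one_pos, by rw [hε']; exact le_top⟩
      · exact ⟨ε.toReal, ENNReal.toReal_pos hε.ne' hε', by rw [ENNReal.ofReal_toReal hε']⟩
    refine ⟨r ^ p⁻¹, Real.rpow_pos_of_pos hr0 _, ?_⟩
    rw [ENNReal.ofReal_rpow_of_pos (Real.rpow_pos_of_pos hr0 _), ← Real.rpow_mul hr0.le,
      inv_mul_cancel₀ hp0.ne', Real.rpow_one]
    exact hr
  obtain ⟨δ, hδ, H⟩ := Metric.continuous_iff.1 hcont 0 r hr0
  refine ⟨δ, hδ, fun h hh => ?_⟩
  have h3 := H h (by simpa using hh)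
  rw [h0, Lp.dist_def] at h3
  have h4 : (⇑(DomAddAct.mk h +ᵥ L : Lp E q (volume : Measure V))) =ᵐ[volume]
      fun x => G (h + x) := by
    have h5 := DomAddAct.vadd_Lp_ae_eq (DomAddAct.mk h) L
    have h6 : (⇑L) =ᵐ[volume] G := hG.coeFn_toLp
    refine h5.trans ?_
    exact (measurePreserving_vadd h (volume : Measure V)).quasiMeasurePreserving.ae_eq_comp h6
  have h8 : eLpNorm (⇑(DomAddAct.mk h +ᵥ L : Lp E q (volume : Measure V)) - ⇑L) q volume ^ p =
      ∫⁻ x, ‖G (h + x) - G x‖ₑ ^ p := by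
    rw [eLpNorm_eq_lintegral_rpow_enorm_toReal hq0 hqt, hqp, ← ENNReal.rpow_mul,
      one_div_mul_cancel hp0.ne', ENNReal.rpow_one]
    refine lintegral_congr_ae ?_
    filter_upwards [h4, hG.coeFn_toLp] with x hx hx'
    rw [Pi.sub_apply, hx, hx']
  have h9 : eLpNorm (⇑(DomAddAct.mk h +ᵥ L : Lp E q (volume : Measure V)) - ⇑L) q volume ≤
      ENNReal.ofReal r := by
    have hne : eLpNorm (⇑(DomAddAct.mk h +ᵥ L : Lp E q (volume : Measure V)) - ⇑L) q volume
        ≠ ∞ :=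
      ((Lp.memLp (DomAddAct.mk h +ᵥ L : Lp E q (volume : Measure V))).sub
        (Lp.memLp L)).eLpNorm_ne_top
    rw [← ENNReal.ofReal_toReal hne]
    exact ENNReal.ofReal_le_ofReal h3.le
  have h10 := (ENNReal.rpow_le_rpow h9 hp0.le).trans hr
  rw [h8] at h10
  refine le_trans (le_of_eq ?_) h10
  exact lintegral_congr fun x => by rw [add_comm]

theorem meas_diffP {X : Type*} [MeasurableSpace X] {G : V → E} (hG : StronglyMeasurable G) (p : ℝ)
    {φ ψ : X → V} (hφ : Measurable φ) (hψ : Measurable ψ) :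
    Measurable fun q => ‖G (φ q) - G (ψ q)‖ₑ ^ p :=
  (H79.meas_diff hG hφ hψ).pow_const p

/-- the point with parameter `t` of the square number `(a, k)` of generation `n + j`, relative to
the origin; the cube of generation `n` contains `y` -/
noncomputable def Qt (a : Fin 3 → ℤ) (k : Fin 3) (j n : ℕ) (y t : V) : V := fun i =>
  (⌊2 ^ n * y i⌋ : ℝ) / 2 ^ n + (a i : ℝ) / 2 ^ (n + j) + (if i = k then 0 else t i / 2 ^ (n + j))

theorem measurable_Qt (a : Fin 3 → ℤ) (k : Fin 3) (j n : ℕ) :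
    Measurable fun p : V × V => Qt a k j n p.1 p.2 := by
  refine measurable_pi_lambda _ fun i => ?_
  unfold Qt
  by_cases h : i = k
  · simp only [h, if_true]
    have : Measurable fun p : V × V => (⌊2 ^ n * p.1 k⌋ : ℝ) := by fun_prop
    fun_prop
  · simp only [h, if_false]
    have : Measurable fun p : V × V => (⌊2 ^ n * p.1 i⌋ : ℝ) := by fun_prop
    fun_prop

theorem norm_Qt_sub_le (a : Fin 3 → ℤ) (k : Fin 3) (j n : ℕ) (y : V) {t : V}
    (ht : t ∈ Icc (0:V) 1) :
    ‖Qt a k j n y t - y‖ ≤ (2 + ∑ i, |(a i : ℝ)|) / 2 ^ n := by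
  have hp : (0:ℝ) < 2 ^ n := by positivity
  have hp' : (0:ℝ) < 2 ^ (n + j) := by positivity
  have hle : (1:ℝ) / 2 ^ (n + j) ≤ 1 / 2 ^ n :=
    one_div_le_one_div_of_le hp (pow_le_pow_right₀ (by norm_num) (Nat.le_add_right _ _))
  rw [pi_norm_le_iff_of_nonneg (by
    have : 0 ≤ ∑ i, |(a i : ℝ)| := Finset.sum_nonneg fun i _ => abs_nonneg _
    positivity)]
  intro i
  rw [Pi.sub_apply, Real.norm_eq_abs]
  have h1 := Int.floor_le (2 ^ n * y i)
  have h2 := Int.lt_floor_add_one (2 ^ n * y i)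
  have e1 : |(⌊2 ^ n * y i⌋ : ℝ) / 2 ^ n - y i| ≤ 1 / 2 ^ n := by
    have : (⌊2 ^ n * y i⌋ : ℝ) / 2 ^ n - y i = (⌊2 ^ n * y i⌋ - 2 ^ n * y i) / 2 ^ n := by
      field_simp
    rw [this, abs_div, abs_of_pos hp]
    gcongr
    rw [abs_le]
    constructor <;> linarith
  have e2 : |(a i : ℝ) / 2 ^ (n + j)| ≤ (∑ i, |(a i : ℝ)|) / 2 ^ n := by
    rw [abs_div, abs_of_pos hp', div_eq_mul_one_div, div_eq_mul_one_div (∑ i, |(a i : ℝ)|)]
    have h3 : |(a i : ℝ)| ≤ ∑ i, |(a i : ℝ)| :=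
      Finset.single_le_sum (f := fun i => |(a i : ℝ)|) (fun i _ => abs_nonneg _)
        (Finset.mem_univ i)
    exact mul_le_mul h3 hle (by positivity) ((abs_nonneg _).trans h3)
  have e3 : |(if i = k then 0 else t i / 2 ^ (n + j) : ℝ)| ≤ 1 / 2 ^ n := by
    split_ifs
    · rw [abs_zero]; positivity
    · rw [abs_div, abs_of_pos hp', abs_of_nonneg (ht.1 i)]
      exact (div_le_div_of_nonneg_right (ht.2 i) hp'.le).trans hle
  have e4 : Qt a k j n y t i - y i = ((⌊2 ^ n * y i⌋ : ℝ) / 2 ^ n - y i) +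
      (a i : ℝ) / 2 ^ (n + j) + (if i = k then 0 else t i / 2 ^ (n + j) : ℝ) := by
    simp only [Qt]; ring
  rw [e4]
  refine (abs_add_le _ _).trans ?_
  refine (add_le_add_left (abs_add_le _ _) _).trans ?_
  have e5 : (2 + ∑ i, |(a i : ℝ)|) / 2 ^ n = 1 / 2 ^ n + (∑ i, |(a i : ℝ)|) / 2 ^ n + 1 / 2 ^ n := by
    ring
  rw [e5]
  linarith

/-- average over the square number `(a, k)` of generation `n + j` in the cube of generation `n`
which contains `x` -/
noncomputable def Ks (p : ℝ) (G : V → E) (a : Fin 3 → ℤ) (k : Fin 3) (j n : ℕ) (q : V × V) :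
    ℝ≥0∞ :=
  ∫⁻ t in Icc (0:V) 1, ‖G (q.1 + Qt a k j n (q.2 - q.1) t) - G q.2‖ₑ ^ p

theorem measurable_Ks (p : ℝ) {G : V → E} (hG : StronglyMeasurable G) (a : Fin 3 → ℤ) (k : Fin 3)
    (j n : ℕ) : Measurable (Ks p G a k j n) := by
  have hP := measurable_Qt a k j n
  unfold Ks
  generalize Qt a k j n = P at hP ⊢
  have h1 : Measurable fun q : (V × V) × V => q.1.1 + P (q.1.2 - q.1.1) q.2 :=
    (measurable_fst.comp measurable_fst).add (hP.comp
      (((measurable_snd.comp measurable_fst).sub (measurable_fst.comp measurable_fst)).prodMk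
        measurable_snd))
  have h2 : Measurable fun q : (V × V) × V => q.1.2 := measurable_snd.comp measurable_fst
  have h3 : Measurable fun q : (V × V) × V =>
      ‖G (q.1.1 + P (q.1.2 - q.1.1) q.2) - G q.1.2‖ₑ ^ p := meas_diffP hG p h1 h2
  exact h3.lintegral_prod_right'

theorem volume_Icc_one : volume (Icc (0:V) 1) = 1 := by
  rw [Real.volume_Icc_pi]
  simp

/-- the main estimate for an abstract position function `P` -/
theorem lintegral_auxP {p : ℝ} {G : V → E} (hG : StronglyMeasurable G) {P : V → V → V}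
    (hP : Measurable fun p : V × V => P p.1 p.2) {η : ℝ≥0∞} {δ : ℝ}
    (hs : ∀ h : V, ‖h‖ < δ → ∫⁻ x, ‖G (x + h) - G x‖ₑ ^ p ≤ η)
    (hPy : ∀ y, ∀ t ∈ Icc (0:V) 1, ‖P y t - y‖ < δ) (R : ℕ) :
    ∫⁻ v in Icc (0:V) 1, ∫⁻ x, (closedBall (0:V) (R:ℝ)).indicator
      (fun x => ∫⁻ t in Icc (0:V) 1, ‖G (v + P (x - v) t) - G x‖ₑ ^ p) x ≤
      η * volume (closedBall (0:V) (R + 1 : ℝ)) := by
  set B : Set V := closedBall (0:V) (R + 1 : ℝ) with hB
  have hBm : MeasurableSet B := measurableSet_closedBall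
  set f : V → V → ℝ≥0∞ := fun v y =>
    ∫⁻ t in Icc (0:V) 1, ‖G (v + P y t) - G (v + y)‖ₑ ^ p with hf
  have hfm : Measurable fun p : V × V => f p.1 p.2 := by
    have h1 : Measurable fun q : (V × V) × V => q.1.1 + P q.1.2 q.2 :=
      (measurable_fst.comp measurable_fst).add (hP.comp
        ((measurable_snd.comp measurable_fst).prodMk measurable_snd))
    have h2 : Measurable fun q : (V × V) × V => q.1.1 + q.1.2 := by fun_prop
    have h3 : Measurable fun q : (V × V) × V =>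
        ‖G (q.1.1 + P q.1.2 q.2) - G (q.1.1 + q.1.2)‖ₑ ^ p := meas_diffP hG p h1 h2
    exact h3.lintegral_prod_right'
  calc ∫⁻ v in Icc (0:V) 1, ∫⁻ x, (closedBall (0:V) (R:ℝ)).indicator
          (fun x => ∫⁻ t in Icc (0:V) 1, ‖G (v + P (x - v) t) - G x‖ₑ ^ p) x
      ≤ ∫⁻ v in Icc (0:V) 1, ∫⁻ y in B, f v y := by
        refine setLIntegral_mono' measurableSet_Icc fun v hv => ?_
        rw [← lintegral_add_left_eq_self _ v, ← lintegral_indicator hBm]
        refine lintegral_mono fun y => ?_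
        by_cases h : v + y ∈ closedBall (0:V) (R:ℝ)
        · have h1 : y ∈ B := by
            rw [hB, mem_closedBall, dist_zero_right]
            rw [mem_closedBall, dist_zero_right] at h
            have h2 : ‖v‖ ≤ 1 := by
              rw [pi_norm_le_iff_of_nonneg zero_le_one]
              intro i
              rw [Real.norm_eq_abs, abs_of_nonneg (hv.1 i)]
              exact hv.2 i
            calc ‖y‖ = ‖(v + y) - v‖ := by rw [add_sub_cancel_left]
              _ ≤ ‖v + y‖ + ‖v‖ := norm_sub_le _ _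
              _ ≤ R + 1 := add_le_add h h2
          rw [indicator_of_mem h, indicator_of_mem h1]
          simp only [hf, add_sub_cancel_left]
          exact le_refl _
        · rw [indicator_of_notMem h]
          exact zero_le
    _ ≤ ∫⁻ v : V, ∫⁻ y in B, f v y := setLIntegral_le_lintegral _ _
    _ = ∫⁻ y in B, ∫⁻ v, f v y := lintegral_lintegral_swap hfm.aemeasurable
    _ ≤ ∫⁻ _y in B, η := by
        refine lintegral_mono fun y => ?_
        have h1 : Measurable fun q : V × V => q.1 + P y q.2 :=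
          measurable_fst.add (hP.comp (measurable_const.prodMk measurable_snd))
        have h2 : Measurable fun q : V × V => q.1 + y := by fun_prop
        have h3 : Measurable fun q : V × V => ‖G (q.1 + P y q.2) - G (q.1 + y)‖ₑ ^ p :=
          meas_diffP hG p h1 h2
        simp only [hf]
        rw [lintegral_lintegral_swap h3.aemeasurable]
        calc ∫⁻ t in Icc (0:V) 1, ∫⁻ v, ‖G (v + P y t) - G (v + y)‖ₑ ^ p
            ≤ ∫⁻ _t in Icc (0:V) 1, η := by
              refine setLIntegral_mono' measurableSet_Icc fun t ht => ?_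
              have h5 := lintegral_add_right_eq_self (μ := (volume : Measure V))
                (fun v => ‖G (v + (P y t - y)) - G v‖ₑ ^ p) y
              have h6 : ∀ v, v + y + (P y t - y) = v + P y t := fun v => by abel
              simp only [h6] at h5
              rw [h5]
              exact hs _ (hPy y t ht)
          _ = η := by
              rw [setLIntegral_const, volume_Icc_one, mul_one]
    _ = η * volume B := by rw [setLIntegral_const]

theorem tendsto_Ks {p : ℝ} (hp : 1 ≤ p) {G : V → E} (hG : StronglyMeasurable G)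
    (hGi : MemLp G (ENNReal.ofReal p) volume) (a : Fin 3 → ℤ) (k : Fin 3) (j : ℕ) (R : ℕ) :
    Tendsto (fun n => ∫⁻ q, ((Prod.snd : V × V → V) ⁻¹' closedBall (0:V) (R:ℝ)).indicator
      (Ks p G a k j n) q ∂((volume.restrict (Icc (0:V) 1)).prod (volume : Measure V)))
      atTop (𝓝 0) := by
  set c : ℝ≥0∞ := volume (closedBall (0:V) (R + 1 : ℝ)) with hc
  have hct : c ≠ ⊤ := by
    rw [hc]
    exact (isCompact_closedBall (0:V) (R + 1 : ℝ)).measure_ne_top
  rw [ENNReal.tendsto_nhds_zero]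
  intro ε hε
  obtain ⟨η, hη0, hη⟩ : ∃ η : ℝ≥0∞, 0 < η ∧ η * c ≤ ε := by
    by_cases h : c = 0
    · exact ⟨1, one_pos, by rw [h, mul_zero]; exact zero_le⟩
    · refine ⟨ε / c, ENNReal.div_pos hε.ne' hct, ?_⟩
      rw [ENNReal.div_mul_cancel h hct]
  obtain ⟨δ, hδ, hs⟩ := exists_shiftP hp hGi hη0
  have hlim : Tendsto (fun n : ℕ => (2 + ∑ i, |(a i : ℝ)|) / 2 ^ n) atTop (𝓝 0) := by
    have h4 : Tendsto (fun n : ℕ => (1 / 2 ^ n : ℝ)) atTop (𝓝 0) := by
      have := tendsto_pow_atTop_nhds_zero_of_lt_one (r := (1 / 2 : ℝ)) (by norm_num) (by norm_num)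
      simpa [one_div_pow] using this
    have := h4.const_mul (2 + ∑ i, |(a i : ℝ)|)
    rw [mul_zero] at this
    refine this.congr fun n => by ring
  filter_upwards [hlim.eventually_lt_const hδ] with n hn
  have hm : Measurable (((Prod.snd : V × V → V) ⁻¹' closedBall (0:V) (R:ℝ)).indicator
      (Ks p G a k j n)) :=
    (measurable_Ks p hG a k j n).indicator (measurableSet_closedBall.preimage measurable_snd)
  rw [lintegral_prod _ hm.aemeasurable]
  refine le_trans ?_ hη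
  exact lintegral_auxP hG (measurable_Qt a k j n) hs
    (fun y t ht => (norm_Qt_sub_le a k j n y ht).trans_lt hn) R

theorem sub_mem_boxS {v : V} {n j : ℕ} {z : Fin 3 → ℤ} {s : Idx × Fin 3} (he : s.1.1 = n + j)
    (hsub : squ v s ⊆ dyc v n z) : (fun i => s.1.2 i - 2 ^ j * z i) ∈ H79.box j := by
  rw [H79.box, Fintype.mem_piFinset]
  intro i
  rw [Finset.mem_Icc]
  have h1 : v i + (z i : ℝ) / 2 ^ n ≤ v i + (s.1.2 i : ℝ) / 2 ^ s.1.1 ∧
      v i + (s.1.2 i : ℝ) / 2 ^ s.1.1 ≤ v i + ((z i : ℝ) + 1) / 2 ^ n :=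
    hsub (H83.pt_mem_squ v s) i
  rw [he, pow_add] at h1
  have hn : (0:ℝ) < 2 ^ n := by positivity
  have hj : (0:ℝ) < 2 ^ j := by positivity
  have h2 : (z i : ℝ) * 2 ^ j ≤ s.1.2 i := by
    have h := (add_le_add_iff_left (v i)).1 h1.1
    rw [div_le_div_iff₀ hn (by positivity)] at h
    nlinarith
  have h3 : (s.1.2 i : ℝ) ≤ (z i + 1) * 2 ^ j := by
    have h := (add_le_add_iff_left (v i)).1 h1.2
    rw [div_le_div_iff₀ (by positivity) hn] at h
    nlinarith
  have h2' : z i * 2 ^ j ≤ s.1.2 i := by exact_mod_cast h2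
  have h3' : s.1.2 i ≤ (z i + 1) * 2 ^ j := by exact_mod_cast h3
  constructor
  · linarith
  · linarith

theorem measurableSet_dyc (v : V) (m : ℕ) (z : Fin 3 → ℤ) : MeasurableSet (dyc v m z) := by
  have h : dyc v m z = Set.pi univ fun k =>
      Icc (v k + z k / 2 ^ m) (v k + (z k + 1) / 2 ^ m) := by
    ext x
    simp only [dyc, mem_ofPred_eq, Set.mem_pi, mem_univ, true_implies, mem_Icc]
  rw [h]
  exact MeasurableSet.univ_pi fun k => measurableSet_Icc

theorem lintegral_scale (c : V) {r : ℝ} (hr : 0 < r) (φ : V → ℝ≥0∞) :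
    ∫⁻ x, φ x = ENNReal.ofReal (r ^ 3) * ∫⁻ u, φ (c + r • u) := by
  have h1 : ∫⁻ u : V, φ (c + r • u) = ENNReal.ofReal ((r ^ 3)⁻¹) * ∫⁻ y, φ (c + y) := by
    have h2 := Measure.map_addHaar_smul (volume : Measure V) hr.ne'
    rw [Module.finrank_fin_fun, abs_of_pos (by positivity)] at h2
    have h3 := lintegral_map_equiv (μ := (volume : Measure V)) (fun y => φ (c + y))
      (Homeomorph.smulOfNeZero r hr.ne').toMeasurableEquiv
    have h4 : (⇑(Homeomorph.smulOfNeZero (α := V) r hr.ne').toMeasurableEquiv) =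
      (fun y => r • y) := rfl
    rw [h4] at h3
    rw [← h3, h2, lintegral_smul_measure, smul_eq_mul]
  rw [h1, lintegral_add_left_eq_self, ← mul_assoc, ← ENNReal.ofReal_mul (by positivity),
    mul_inv_cancel₀ (by positivity), ENNReal.ofReal_one, one_mul]

theorem sInt_eq_scale (v : V) (s : Idx × Fin 3) (H : V → ℝ≥0∞) :
    sInt v s H = ENNReal.ofReal ((1 / 2 ^ s.1.1) ^ 2) * ∫⁻ u in Icc (0:V) 1,
      H (pt v s.1.1 s.1.2 + (1 / 2 ^ s.1.1 : ℝ) • Function.update u s.2 0) := by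
  set m := s.1.1 with hm
  set z := s.1.2 with hz
  have hp : (0:ℝ) < 2 ^ m := by positivity
  have hdm : MeasurableSet (dyc v m z) := measurableSet_dyc v m z
  have h1 : ∫⁻ x in dyc v m z, H (Function.update x s.2 (pt v m z s.2)) =
      ENNReal.ofReal ((1 / 2 ^ m) ^ 3) * ∫⁻ u in Icc (0:V) 1,
        H (pt v m z + (1 / 2 ^ m : ℝ) • Function.update u s.2 0) := by
    rw [← lintegral_indicator hdm, lintegral_scale (pt v m z) (r := 1 / 2 ^ m) (by positivity),
      ← lintegral_indicator measurableSet_Icc]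
    congr 1
    refine lintegral_congr fun u => ?_
    have h2 : pt v m z + (1 / 2 ^ m : ℝ) • u ∈ dyc v m z ↔ u ∈ Icc (0:V) 1 := by
      simp only [dyc, mem_ofPred_eq, mem_Icc, Pi.le_def, Pi.zero_apply, Pi.one_apply, pt,
        Pi.add_apply, Pi.smul_apply, smul_eq_mul, ← forall_and]
      refine forall_congr' fun k => ?_
      have e1 : v k + (z k + 1) / 2 ^ m = v k + z k / 2 ^ m + 1 / 2 ^ m * 1 := by ring
      rw [e1, le_add_iff_nonneg_right, add_le_add_iff_left,
        mul_le_mul_iff_right₀ (by positivity : (0:ℝ) < 1 / 2 ^ m)]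
      have e2 : 0 ≤ 1 / 2 ^ m * u k ↔ 0 ≤ u k := by
        rw [mul_nonneg_iff_of_pos_left (by positivity : (0:ℝ) < 1 / 2 ^ m)]
      rw [e2]
    by_cases hu : u ∈ Icc (0:V) 1
    · rw [indicator_of_mem hu, indicator_of_mem (h2.2 hu)]
      congr 1
      funext i
      by_cases hi : i = s.2
      · subst hi
        simp
      · simp [Function.update_of_ne hi]
    · rw [indicator_of_notMem hu, indicator_of_notMem (fun h => hu (h2.1 h))]
  unfold sInt
  rw [h1, ← mul_assoc]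
  congr 1
  have e3 : (2:ℝ≥0∞) ^ m = ENNReal.ofReal (2 ^ m) := by
    rw [ENNReal.ofReal_pow (by norm_num)]
    norm_num
  rw [← hm, e3, ← ENNReal.ofReal_mul hp.le]
  congr 1
  field_simp

theorem sInt_eq_Ks {p : ℝ} {G : V → E} {v x : V} {n j : ℕ} {s : Idx × Fin 3}
    (he : s.1.1 = n + j) :
    sInt v s (fun y => ‖G y - G x‖ₑ ^ p) = ENNReal.ofReal ((1 / 2 ^ (n + j)) ^ 2) *
      Ks p G (fun i => s.1.2 i - 2 ^ j * idx v n x i) s.2 j n (v, x) := by
  rw [sInt_eq_scale]
  unfold Ks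
  rw [he]
  congr 1
  refine lintegral_congr fun t => ?_
  have h1 : pt v (n + j) s.1.2 + (1 / 2 ^ (n + j) : ℝ) • Function.update t s.2 0 =
      v + Qt (fun i => s.1.2 i - 2 ^ j * idx v n x i) s.2 j n (x - v) t := by
    funext i
    simp only [Pi.add_apply, Pi.smul_apply, smul_eq_mul, pt, Qt, Pi.sub_apply, idx]
    have hn : (0:ℝ) < 2 ^ n := by positivity
    have hj : (0:ℝ) < 2 ^ j := by positivity
    rw [pow_add]
    push_cast
    by_cases h : i = s.2
    · subst h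
      simp only [Function.update_self, if_true]
      field_simp
      ring
    · rw [Function.update_of_ne h, if_neg h]
      field_simp
      ring
  rw [h1]

/-- **(SQUARE-LEB)** -/
theorem exists_squ_leb {p : ℝ} (hp : 1 ≤ p) {G : V → E} (hG : MemLp G (ENNReal.ofReal p) volume)
    {M₀ : ℕ → ℕ} (hM₀ : StrictMono M₀) :
    ∃ φ : ℕ → ℕ, StrictMono φ ∧ ∀ᵐ v ∂(volume.restrict (Icc (0:V) 1)), ∀ᵐ x : V,
      SquLeb p v (fun l => M₀ (φ l)) G x := by
  -- a measurable representative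
  set G₁ : V → E := hG.1.mk G with hG₁
  have hG₁m : StronglyMeasurable G₁ := hG.1.stronglyMeasurable_mk
  have hGG : G =ᵐ[volume] G₁ := hG.1.ae_eq_mk
  have hG₁i : MemLp G₁ (ENNReal.ofReal p) volume := (memLp_congr_ae hGG).1 hG
  set N : Set V := {x | ¬ G x = G₁ x} with hN
  have hN0 : volume N = 0 := ae_iff.1 hGG
  set μ : Measure (V × V) := (volume.restrict (Icc (0:V) 1)).prod volume with hμ
  set X : (ℕ × (Fin 3 → ℤ) × Fin 3 × ℕ) → ℕ → V × V → ℝ≥0∞ := fun τ n q =>
    ((Prod.snd : V × V → V) ⁻¹' closedBall (0:V) (τ.1:ℝ)).indicator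
      (Ks p G₁ τ.2.1 τ.2.2.1 τ.2.2.2 n) q with hX
  obtain ⟨φ, hφ, hmain⟩ := H83.exists_generations' (μ := μ) X
    (fun τ n => ((measurable_Ks p hG₁m _ _ _ _).indicator
      (measurableSet_closedBall.preimage measurable_snd)).aemeasurable)
    (fun τ => tendsto_Ks hp hG₁m hG₁i τ.2.1 τ.2.2.1 τ.2.2.2 τ.1) hM₀
  refine ⟨φ, hφ, ?_⟩
  have h1 := Measure.ae_ae_of_ae_prod hmain
  have h2 := ae_restrict_of_ae (s := Icc (0:V) 1) (H83.ae_rep hN0)
  filter_upwards [h1, h2] with v hv hvN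
  filter_upwards [hv, hGG] with x hx hxG
  intro j δ hδ
  obtain ⟨R, hR⟩ := exists_nat_ge ‖x‖
  have hxR : x ∈ closedBall (0:V) (R:ℝ) := by rwa [mem_closedBall, dist_zero_right]
  have h3 : ∀ᶠ l in atTop, ∀ a ∈ H79.box j, ∀ k : Fin 3,
      Ks p G₁ a k j (M₀ (φ l)) (v, x) ≤ δ := by
    rw [Filter.eventually_all_finset]
    intro a _
    rw [Filter.eventually_all]
    intro k
    have h4 := hx (R, a, k, j)
    simp only [hX] at h4
    have h5 : ∀ n, ((Prod.snd : V × V → V) ⁻¹' closedBall (0:V) ((R, a, k, j).1:ℝ)).indicator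
        (Ks p G₁ a k j n) (v, x) = Ks p G₁ a k j n (v, x) := fun n =>
      indicator_of_mem (show (v, x) ∈ (Prod.snd : V × V → V) ⁻¹' closedBall (0:V) (R:ℝ) from hxR) _
    simp only [h5] at h4
    exact h4.eventually (ge_mem_nhds (pos_iff_ne_zero.2 hδ))
  filter_upwards [h3] with l hl s he hsub
  have h6 : sInt v s (fun y => ‖G y - G x‖ₑ ^ p) = sInt v s (fun y => ‖G₁ y - G₁ x‖ₑ ^ p) := by
    refine (hvN _ _ fun y hy => ?_).2 s
    have h7 : G y = G₁ y := by
      by_contra h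
      exact hy h
    rw [h7, hxG]
  rw [h6, sInt_eq_Ks he]
  have h8 := hl _ (sub_mem_boxS he hsub) s.2
  calc ENNReal.ofReal ((1 / 2 ^ (M₀ (φ l) + j)) ^ 2) * Ks p G₁ _ s.2 j (M₀ (φ l)) (v, x)
      ≤ ENNReal.ofReal ((1 / 2 ^ M₀ (φ l)) ^ 2) * δ := by
        refine mul_le_mul' (ENNReal.ofReal_le_ofReal ?_) h8
        refine pow_le_pow_left₀ (by positivity) ?_ 2
        exact one_div_le_one_div_of_le (by positivity)
          (pow_le_pow_right₀ (by norm_num) (Nat.le_add_right _ _))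
    _ = δ * ENNReal.ofReal ((1 / 2 ^ M₀ (φ l)) ^ 2) := mul_comm _ _

/-- **(SQUARE-LEB)** for an integrable function -/
theorem exists_squ_leb_one {G : V → E} (hG : Integrable G) {M₀ : ℕ → ℕ} (hM₀ : StrictMono M₀) :
    ∃ φ : ℕ → ℕ, StrictMono φ ∧ ∀ᵐ v ∂(volume.restrict (Icc (0:V) 1)), ∀ᵐ x : V,
      SquLeb 1 v (fun l => M₀ (φ l)) G x :=
  exists_squ_leb le_rfl (by rw [ENNReal.ofReal_one]; exact memLp_one_iff_integrable.2 hG) hM₀

theorem memLp_ind {Ω : Set V} {G : V → E} {q : ℝ≥0∞} (hΩ : MeasurableSet Ω)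
    (h : MemLp G q (volume.restrict Ω)) : MemLp (Ω.indicator G) q volume :=
  (memLp_indicator_iff_restrict hΩ).2 h

/-- the derivative of a Sobolev function, extended by zero, is in `L^p` -/
theorem memLp_indicator_cl {p : ℝ} {Ω : Set V} {f : V → V} {F : V → Mat}
    (hΩ : IsBoundedDomain Ω) (hF : IsSobolev p Ω f F) :
    MemLp (Ω.indicator fun x => cl (F x)) (ENNReal.ofReal p) volume := by
  have h1 := PK.IsSob.memLp_cl hF
  exact memLp_ind hΩ.1.measurableSet h1

/-- **(SQUARE-LEB)** for a Sobolev function: for a.e. origin and a.e. point, the squares of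
generation `nn l + j` in the cube of generation `nn l` containing `x`. -/
theorem exists_squ_leb_sobolev {p : ℝ} {Ω : Set V} {f : V → V} {F : V → Mat} (hp : 1 ≤ p)
    (hΩ : IsBoundedDomain Ω) (hF : IsSobolev p Ω f F) {M₀ : ℕ → ℕ} (hM₀ : StrictMono M₀) :
    ∃ φ : ℕ → ℕ, StrictMono φ ∧ ∀ᵐ v ∂(volume.restrict (Icc (0:V) 1)), ∀ᵐ x : V,
      SquLeb p v (fun l => M₀ (φ l)) (Ω.indicator fun x => cl (F x)) x :=
  exists_squ_leb hp (memLp_indicator_cl hΩ hF) hM₀

/-- the form used for good cells -/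
theorem SquLeb.own {p : ℝ} {Ω : Set V} {F : V → Mat} {v x : V} {nn : ℕ → ℕ}
    (h : SquLeb p v nn (Ω.indicator fun x => cl (F x)) x) (hΩ : IsOpen Ω) (hx : x ∈ Ω)
    (hnn : StrictMono nn) (j : ℕ) {κ : ℝ} (hκ : 0 < κ) :
    ∀ᶠ l in atTop, dyc v (nn l) (idx v (nn l) x) ⊆ Ω ∧ ∀ s : Idx × Fin 3, s.1.1 = nn l + j →
      squ v s ⊆ dyc v (nn l) (idx v (nn l) x) →
      sInt v s (fun y => ‖cl (F y) - cl (F x)‖ₑ ^ p) ≤
        ENNReal.ofReal (κ / 4 ^ (nn l + j)) := by
  have hj : (0:ℝ) < 4 ^ j := by positivity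
  filter_upwards [h j (ENNReal.ofReal (κ / 4 ^ j)) (by
    rw [Ne, ENNReal.ofReal_eq_zero, not_le]
    positivity), H79.eventually_dyc_subset hΩ hx v hnn] with l hl hsub
  refine ⟨hsub, fun s he hes => ?_⟩
  refine le_trans (le_of_eq ?_) ((hl s he hes).trans (le_of_eq ?_))
  · have hdm : MeasurableSet (dyc v s.1.1 s.1.2) := measurableSet_dyc v _ _
    unfold sInt
    congr 1
    refine setLIntegral_congr_fun hdm fun y hy => ?_
    have h2 := hsub (hes (H83.squ_of_upd hy))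
    simp only []
    rw [indicator_of_mem h2, indicator_of_mem hx]
  · rw [← ENNReal.ofReal_mul (by positivity)]
    congr 1
    rw [pow_add, show (4:ℝ) = 2 ^ 2 by norm_num, ← pow_mul, ← pow_mul]
    field_simp
    rw [← pow_mul]
    ring

end Vale.Agent.P073.H523
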