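import Vale.Agent.P073.H523.BeamDefs
import Vale.Agent.P073.H16.BeamV
import Vale.Agent.P073.H16.RectB
import Vale.Agent.P073.H235.PreFlatB

/-!
# P073, rank one, `2 ≤ p < 3`, [BEAM-FIN]: the choice of the constants
-/

namespace Vale.Agent.P073.H523

open MeasureTheory Set Filter Topology Metric Vale.Agent.P073.St Vale.Agent.P073.AB
open Vale.Agent.P073.SQ (ev)
open Vale.Agent.P073.LOC (Near Q1 BdClose)
open Vale.Agent.P073.H194 (RgN cW)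
open Vale.Agent.P073.H235 (Bx bm fl Co cmp cmpD P1 Kc Kc_ne_top exists_pow_le)
open Vale.Agent.P073.H253 (rectN redgeN ledge BVData PreBeam SpecPreBeam)
open Vale.Agent.P073.H732 (upz)
open _root_.P073 (ConHomeo)
open scoped ENNReal

/-- `SpecBuildB` with a further hypothesis -/
def SpecBuildW (p : ℝ) : Prop :=
  ∀ (C θ₁ θ₂ ν₁ ν τ ε δ κ εP η b : ℝ), 0 < θ₁ → θ₁ ≤ 1 / 4 → 0 < θ₂ → θ₂ ≤ 1 / 4 → 0 < ν₁ →
    ν₁ ≤ ν / 4 → 0 < ν → ν ≤ 1 / 4 → 0 < ε → 0 < δ → 0 < η → 0 < b → b ≤ 1 → 0 < κ → 0 < εP →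
    ∀ (m₀ : ℕ) (Λ : Set V) (f : V → V) (F : V → Mat), 1 / 2 ^ m₀ ≤ ν → St.IsBoundedDomain Λ →
    St.IsHomeo (Bx (bm θ₁ θ₂)) Λ (cmp (bm θ₁ θ₂) f) → ∀ (D : BVData p θ₁ θ₂ κ m₀ Λ f F)
    (α β : Fin 3 → ℤ), α 1 = D.B₁ → (∀ j, j ≠ 1 → α j < β j) →
    RgN 1 D.v m₀ α β ⊆ Bx (bm θ₁ θ₂) → (β 0 - α 0 : ℝ) / 2 ^ m₀ ≤ 1 →
    (β 2 - α 2 : ℝ) / 2 ^ m₀ ≤ 2 * θ₂ → D.B₂ ∈ Icc (α 2) (β 2) →
    (∀ k ∈ Finset.Ico (α 0) (β 0), edge D.v (ledge m₀ D.B₁ D.B₂ k) ⊆ RgN 1 D.v m₀ α β) →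
    (∀ x ∈ Bx (fl θ₂) ∩ Co (fl θ₂) (ν₁ / 2) {0, 2}, ∀ j, j ≠ 1 →
      D.v j + α j / 2 ^ m₀ ≤ x j ∧ x j ≤ D.v j + β j / 2 ^ m₀) →
    POutB D (α 0) (β 0) εP → 1 / 2 ^ m₀ ≤ τ →
    cW p 8 * (36 * (Kc p 5 * (ENNReal.ofReal (2 ^ p) * (ENNReal.ofReal κ +
      ENNReal.ofReal (4 * θ₁ * θ₂)))) + ENNReal.ofReal η) ≤ ENNReal.ofReal (C * θ₁ * θ₂) →
    cW p 8 * (36 * (Kc p 5 * (ENNReal.ofReal (2 ^ p) * (ENNReal.ofReal κ +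
      ENNReal.ofReal (64 * ν₁ * θ₁ * θ₂)))) + ENNReal.ofReal η) ≤
        ENNReal.ofReal (C * ν₁ * θ₁ * θ₂) →
    4 * cW p 8 * (Kc p 5 * (ENNReal.ofReal (2 ^ p) * (ENNReal.ofReal κ +
      ENNReal.ofReal (2 * θ₂))) + ENNReal.ofReal η) ≤ ENNReal.ofReal (C * θ₂) →
    4 * cW p 8 * (Kc p 5 * (ENNReal.ofReal (2 ^ p) * (ENNReal.ofReal κ +
      ENNReal.ofReal (64 * ν * θ₂))) + ENNReal.ofReal η) ≤ ENNReal.ofReal (C * ν * θ₂) →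
    4 * cW p 8 * (Kc p 5 * (ENNReal.ofReal (2 ^ p) * (ENNReal.ofReal κ +
      ENNReal.ofReal εP)) + ENNReal.ofReal η) ≤ ENNReal.ofReal ε →
    4 ^ p * (κ + b) ≤ ε → 1149984 ≤ C →
    Nonempty (PreBeam p C θ₁ θ₂ ν₁ ν τ ε δ Λ f)

/-- `SpecLineP` for small `θ₁`, `θ₂` -/
def SpecLineW (p : ℝ) : Prop :=
  ∀ ε : ℝ, 0 < ε → ∃ κP > 0, ∀ (θ₁ θ₂ κ : ℝ) (m₀ : ℕ) (Λ : Set V) (f : V → V) (F : V → Mat),
    0 < θ₁ → θ₁ ≤ 1 / 4 → 0 < θ₂ → θ₂ ≤ 1 / 4 → 0 < κ → κ ≤ κP → St.IsBoundedDomain Λ →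
    St.IsHomeo (Bx (bm θ₁ θ₂)) Λ (cmp (bm θ₁ θ₂) f) →
    ∀ (D : BVData p θ₁ θ₂ κ m₀ Λ f F) (z₀ z₁ : ℤ), z₀ < z₁ → (z₁ - z₀ : ℝ) / 2 ^ m₀ ≤ 1 →
    (∀ k ∈ Finset.Ico z₀ z₁, edge D.v (ledge m₀ D.B₁ D.B₂ k) ⊆ Bx (bm θ₁ θ₂)) →
    POutB D z₀ z₁ ε

theorem SpecBuildB.weak {p : ℝ} (h : SpecBuildB p) : SpecBuildW p := by
  intro C θ₁ θ₂ ν₁ ν τ ε δ κ εP η b h1 h2 h3 h4 h5 h6 h7 h8 h9 h10 h11 h12 h13 h14 _ m₀ Λ f F _
  exact h C θ₁ θ₂ ν₁ ν τ ε δ κ εP η b h1 h2 h3 h4 h5 h6 h7 h8 h9 h10 h11 h12 h13 h14 m₀ Λ f F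

theorem SpecLineP.weak {p : ℝ} (h : SpecLineP p) : SpecLineW p := by
  intro ε hε
  obtain ⟨κP, hκP, H⟩ := h ε hε
  exact ⟨κP, hκP, fun θ₁ θ₂ κ m₀ Λ f F h1 _ h3 _ => H θ₁ θ₂ κ m₀ Λ f F h1 h3⟩

theorem specPreBeam_ofW {p : ℝ} (hp : 1 ≤ p) (hp3 : p < 3) (hB : SpecBuildW p)
    (hL : SpecLineW p) : SpecPreBeam p := by
  have hcW : cW p 8 ≠ ⊤ := H194.cW_ne_top hp (by norm_num)
  have hKc : Kc p 5 ≠ ⊤ := Kc_ne_top (by linarith) hp3 5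
  set E : ℝ≥0∞ := 36 * (Kc p 5 * (ENNReal.ofReal (2 ^ p) * 65)) + 1 with hEd
  have hEt : E ≠ ⊤ := by
    refine ENNReal.add_ne_top.2 ⟨ENNReal.mul_ne_top (by norm_num) (ENNReal.mul_ne_top hKc
      (ENNReal.mul_ne_top ENNReal.ofReal_ne_top (by norm_num))), ENNReal.one_ne_top⟩
  have hDt : cW p 8 * E ≠ ⊤ := ENNReal.mul_ne_top hcW hEt
  set D₁ : ℝ := (cW p 8 * E).toReal with hD₁
  have hD : ENNReal.ofReal D₁ = cW p 8 * E := ENNReal.ofReal_toReal hDt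
  have hD0 : 0 ≤ D₁ := ENNReal.toReal_nonneg
  set M : ℝ := 4 * D₁ + 1149984 with hM
  have hM0 : 0 < M := by positivity
  -- the basic estimates
  have key : ∀ (a c g : ℝ), 0 ≤ g → a ≤ g → c ≤ 64 * g →
      cW p 8 * (36 * (Kc p 5 * (ENNReal.ofReal (2 ^ p) * (ENNReal.ofReal a + ENNReal.ofReal c))) +
        ENNReal.ofReal g) ≤ ENNReal.ofReal (D₁ * g) := by
    intro a c g hg ha hc
    rw [ENNReal.ofReal_mul hD0, hD, mul_assoc]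
    refine mul_le_mul' le_rfl ?_
    rw [hEd, add_mul, one_mul]
    refine add_le_add ?_ le_rfl
    calc 36 * (Kc p 5 * (ENNReal.ofReal (2 ^ p) * (ENNReal.ofReal a + ENNReal.ofReal c)))
        ≤ 36 * (Kc p 5 * (ENNReal.ofReal (2 ^ p) * (65 * ENNReal.ofReal g))) := by
          gcongr
          rw [← ENNReal.ofReal_ofNat 65, ← ENNReal.ofReal_mul (by norm_num)]
          calc ENNReal.ofReal a + ENNReal.ofReal c ≤ ENNReal.ofReal g + ENNReal.ofReal (64 * g) := by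
                gcongr
            _ = ENNReal.ofReal (65 * g) := by
                rw [← ENNReal.ofReal_add hg (by positivity)]; congr 1; ring
      _ = _ := by ring
  have key4 : ∀ (a c g : ℝ), 0 ≤ g → a ≤ g → c ≤ 64 * g →
      4 * cW p 8 * (Kc p 5 * (ENNReal.ofReal (2 ^ p) * (ENNReal.ofReal a + ENNReal.ofReal c)) +
        ENNReal.ofReal g) ≤ ENNReal.ofReal (4 * D₁ * g) := by
    intro a c g hg ha hc
    calc 4 * cW p 8 * (Kc p 5 * (ENNReal.ofReal (2 ^ p) * (ENNReal.ofReal a +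
          ENNReal.ofReal c)) + ENNReal.ofReal g)
        = 4 * (cW p 8 * (Kc p 5 * (ENNReal.ofReal (2 ^ p) * (ENNReal.ofReal a +
          ENNReal.ofReal c)) + ENNReal.ofReal g)) := by ring
      _ ≤ 4 * (cW p 8 * (36 * (Kc p 5 * (ENNReal.ofReal (2 ^ p) * (ENNReal.ofReal a +
          ENNReal.ofReal c))) + ENNReal.ofReal g)) := by
          refine mul_le_mul' le_rfl (mul_le_mul' le_rfl (add_le_add ?_ le_rfl))
          exact le_mul_of_one_le_left zero_le (by norm_num : (1:ℝ≥0∞) ≤ 36)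
      _ ≤ ENNReal.ofReal 4 * ENNReal.ofReal (D₁ * g) := by
          rw [ENNReal.ofReal_ofNat]
          gcongr
          exact key a c g hg ha hc
      _ = _ := by
          rw [← ENNReal.ofReal_mul (by norm_num), mul_assoc]
  refine ⟨M, hM0, fun ν hν hν4 θ₂ hθ₂ hθ₂4 ν₁ hν₁ hν₁4 => ⟨1 / 4, by norm_num,
    fun θ₁ hθ₁ hθ₁4 τ hτ δ hδ ε hε => ?_⟩⟩
  obtain ⟨m₀, -, hm₀⟩ := exists_pow_le (lt_min (show 0 < ν₁ * θ₂ / 8 by positivity)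
    (lt_min (show 0 < θ₁ / 2 by positivity) hτ)) 0
  have hm1 : (1:ℝ) / 2 ^ m₀ ≤ ν₁ * θ₂ / 8 := hm₀.trans (min_le_left _ _)
  have hm2 : (1:ℝ) / 2 ^ m₀ ≤ θ₁ / 2 := (hm₀.trans (min_le_right _ _)).trans (min_le_left _ _)
  have hm3 : (1:ℝ) / 2 ^ m₀ ≤ τ := (hm₀.trans (min_le_right _ _)).trans (min_le_right _ _)
  set g₀ : ℝ := ν₁ * θ₁ * θ₂ with hg₀
  have hg₀0 : 0 < g₀ := by positivity
  set t : ℝ := ε / (4 * M) with ht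
  have ht0 : 0 < t := by positivity
  have hMt : M * t ≤ ε / 4 := by rw [ht]; field_simp; exact le_rfl
  have h4p : (0:ℝ) < 4 ^ p := Real.rpow_pos_of_pos (by norm_num) _
  set u : ℝ := ε / (2 * 4 ^ p) with hu
  have hu0 : 0 < u := by positivity
  obtain ⟨κP, hκP, HP⟩ := hL t ht0
  set κ : ℝ := min (min g₀ t) (min u κP) with hκ
  have hκ0 : 0 < κ := lt_min (lt_min hg₀0 ht0) (lt_min hu0 hκP)
  have hκ1 : κ ≤ g₀ := (min_le_left _ _).trans (min_le_left _ _)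
  have hκ2 : κ ≤ t := (min_le_left _ _).trans (min_le_right _ _)
  have hκ3 : κ ≤ u := (min_le_right _ _).trans (min_le_left _ _)
  have hκ4 : κ ≤ κP := (min_le_right _ _).trans (min_le_right _ _)
  set η : ℝ := min g₀ t with hη
  have hη0 : 0 < η := lt_min hg₀0 ht0
  have hη1 : η ≤ g₀ := min_le_left _ _
  have hη2 : η ≤ t := min_le_right _ _
  set b : ℝ := min 1 u with hb
  -- comparison of the scales
  have hν1 : ν₁ ≤ 1 := by linarith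
  have hθ1 : θ₁ ≤ 1 := by linarith
  have hs1 : g₀ ≤ θ₁ * θ₂ := by
    rw [hg₀, mul_assoc]
    exact mul_le_of_le_one_left (by positivity) hν1
  have hs2 : g₀ ≤ ν * θ₂ := by
    have h1 : ν₁ * θ₁ ≤ ν * 1 := mul_le_mul (by linarith) hθ1 hθ₁.le hν.le
    calc g₀ ≤ ν * 1 * θ₂ := by rw [hg₀]; gcongr
      _ = _ := by ring
  have hs3 : ν * θ₂ ≤ θ₂ := mul_le_of_le_one_left hθ₂.le (by linarith)
  have hC : 4 * D₁ ≤ M := by rw [hM]; linarith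
  have hC1 : D₁ ≤ M := by linarith
  obtain ⟨κ', hκ', HV⟩ := H16.specBV p hp θ₁ θ₂ κ m₀ hθ₁ hθ₁4 hθ₂ hθ₂4 hκ0
  refine ⟨κ', hκ', fun Λ f F hN => ?_⟩
  obtain ⟨⟨D⟩, hhom, -⟩ := HV Λ f F hN
  have hΛ := hN.dom
  obtain ⟨α, β, hα, hlt, hRg, h0, h2, hB₂, hedge, hcov⟩ := H16.specRectB θ₁ θ₂ ν₁ D.v m₀ D.B₁ D.B₂
    hθ₁ hθ₂ hθ₂4 hν₁ (by linarith) hm1 hm2 D.mid₁ D.mid₂
  have P : POutB D (α 0) (β 0) t := HP θ₁ θ₂ κ m₀ Λ f F hθ₁ hθ₁4 hθ₂ hθ₂4 hκ0 hκ4 hΛ hhom D (α 0)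
    (β 0) (hlt 0 (by decide)) h0 fun k hk => (hedge k hk).trans hRg
  have hm4 : (1:ℝ) / 2 ^ m₀ ≤ ν := by
    have h1 : ν₁ * θ₂ ≤ ν * 1 := mul_le_mul (by linarith) (by linarith) hθ₂.le hν.le
    linarith
  refine hB M θ₁ θ₂ ν₁ ν τ ε δ κ t η b hθ₁ hθ₁4 hθ₂ hθ₂4 hν₁ hν₁4 hν hν4 hε hδ hη0
    (lt_min one_pos hu0) (min_le_left _ _) hκ0 ht0 m₀ Λ f F hm4 hΛ hhom D α β hα hlt hRg h0 h2 hB₂
    hedge hcov P hm3 ?_ ?_ ?_ ?_ ?_ ?_ ?_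
  · -- bulk
    refine le_trans ?_ ((key κ (4 * θ₁ * θ₂) (θ₁ * θ₂) (by positivity) (hκ1.trans hs1)
      (by nlinarith [mul_pos hθ₁ hθ₂])).trans (ENNReal.ofReal_le_ofReal ?_))
    · gcongr
      exact hη1.trans hs1
    · rw [mul_assoc M]
      gcongr
  · -- frame
    refine le_trans ?_ ((key κ (64 * ν₁ * θ₁ * θ₂) g₀ hg₀0.le hκ1
      (le_of_eq (by rw [hg₀]; ring))).trans (ENNReal.ofReal_le_ofReal ?_))
    · gcongr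
    · have e1 : M * ν₁ * θ₁ * θ₂ = M * g₀ := by rw [hg₀]; ring
      rw [e1]
      gcongr
  · -- plane
    refine le_trans ?_ ((key4 κ (2 * θ₂) θ₂ hθ₂.le ((hκ1.trans hs2).trans hs3)
      (by linarith)).trans (ENNReal.ofReal_le_ofReal ?_))
    · gcongr
      exact (hη1.trans hs2).trans hs3
    · gcongr
  · -- ends of the plane
    refine le_trans ?_ ((key4 κ (64 * ν * θ₂) (ν * θ₂) (by positivity) (hκ1.trans hs2)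
      (le_of_eq (by ring))).trans (ENNReal.ofReal_le_ofReal ?_))
    · gcongr
      exact hη1.trans hs2
    · rw [mul_assoc M]
      gcongr
  · -- line
    refine le_trans ?_ ((key4 κ t t ht0.le hκ2 (by linarith)).trans
      (ENNReal.ofReal_le_ofReal (?_ : 4 * D₁ * t ≤ ε)))
    · gcongr
    · have h1 : 4 * D₁ * t ≤ M * t := by gcongr
      linarith
  · have h1 : b ≤ u := min_le_right _ _
    calc (4:ℝ) ^ p * (κ + b) ≤ 4 ^ p * (2 * u) := by gcongr; linarith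
      _ = ε := by rw [hu]; field_simp
  · rw [hM]; linarith

theorem specPreBeam_of {p : ℝ} (hp : 1 ≤ p) (hp3 : p < 3) (hB : SpecBuildB p)
    (hL : SpecLineP p) : SpecPreBeam p := specPreBeam_ofW hp hp3 hB.weak hL.weak

end Vale.Agent.P073.H523
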