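import Vale.Agent.P073.H523.BeamFin
import Vale.Agent.P073.H687.PB
import Vale.Agent.P073.H439.EnerB
import Vale.Agent.P073.H732.XLine

/-!
# P073, rank one, `2 ≤ p < 3`, [BEAM-FIN], from the literal Props of `H687.PB`
-/

namespace Vale.Agent.P073.H523

open MeasureTheory Set Filter Topology Metric Vale.Agent.P073.St Vale.Agent.P073.AB
open Vale.Agent.P073.H253 (SpecPreBeam)
open scoped ENNReal

theorem lineW_of_TOut {p : ℝ} (hp : 1 ≤ p) (h : H687.SpecTOut) : SpecLineW p := by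
  intro ε hε
  obtain ⟨κ₁, hκ₁, H⟩ := h p ε hp hε
  refine ⟨κ₁, hκ₁, fun θ₁ θ₂ κ m₀ Λ f F h1 h2 h3 h4 h5 h6 hΛ hhom D z₀ z₁ hz hz1 hedge => ?_⟩
  exact H θ₁ θ₂ κ m₀ Λ f F h5 h6 h1 h2 h3 h4 hΛ.1 hhom D
    (H439.EN.specEnerB p θ₁ θ₂ κ m₀ Λ f F hp h1 h2 h3 h4 D).2.2.2.2.2.2 z₀ z₁ hz hz1 hedge

theorem buildW_of_build {p : ℝ} (hp : 1 ≤ p) (hp3 : p < 3) (h : H687.SpecBeamBuild) :
    SpecBuildW p := by
  intro C θ₁ θ₂ ν₁ ν τ ε δ κ εP η b h1 h2 h3 h4 h5 h6 h7 h8 h9 h10 h11 h12 h13 h14 h15 m₀ Λ f F hm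
    hΛ hhom D α β r1 r2 r3 r4 r5 r6 r7 r8 P hτ n1 n2 n3 n4 n5 n6 n7
  obtain ⟨e1, e2, e3, e4, -, e6, e7⟩ := H439.EN.specEnerB p θ₁ θ₂ κ m₀ Λ f F hp h1 h2 h3 h4 D
  have e : H687.EnerB D := ⟨e1, e2, e3, e4, e6, e7⟩
  have r : H687.RectOut θ₁ θ₂ ν₁ D.v m₀ D.B₁ D.B₂ α β := ⟨r1, r2, r3, r4, r5, r6, r7, r8⟩
  have x : H687.XLOut D (α 0) (β 0) := H732.specXL p θ₁ θ₂ κ m₀ Λ f F hp h14 D (α 0) (β 0)
    (r2 0 (by decide)) r4 fun k hk => (r7 k hk).trans r3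
  have k4 : ∀ a c : ℝ≥0∞, 2 * (H194.cW p 8 * (a + c)) ≤ 4 * H194.cW p 8 * (a + c) := by
    intro a c
    rw [← mul_assoc]
    gcongr
    norm_num
  refine h hp hp3 h1 h2 h3 h4 h5 h6 h8 h9 h10 h11 h12 h13 h14.le h15.le hΛ hhom D e r x P hτ hm
    n1 n2 (le_trans (k4 _ _) n3) (le_trans ((k4 _ _).trans ?_) n4) (le_trans ?_ n5) n6 n7
  · gcongr
    norm_num
  · refine mul_le_mul' (le_mul_of_one_le_left zero_le (by norm_num : (1:ℝ≥0∞) ≤ 4)) ?_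
    exact le_self_add

/-- the choice of the constants, from the literal Props of `H687.PB` -/
theorem specPreBeam_of2 {p : ℝ} (hp : 1 ≤ p) (hp3 : p < 3) (hB : H687.SpecBeamBuild)
    (hT : H687.SpecTOut) : SpecPreBeam p :=
  specPreBeam_ofW hp hp3 (buildW_of_build hp hp3 hB) (lineW_of_TOut hp hT)

end Vale.Agent.P073.H523
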