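import Vale.Agent.P073.H523.SquLeb

/-!
# P073, block B09, [OWNP], part 1: the fine edges around almost every point, `p`-th power
-/

open Set Metric Topology Filter MeasureTheory
open scoped ENNReal

namespace Vale.Agent.P073.H523

open Vale.Agent.P073.AB (Idx pt edge eInt squ cl)
open _root_.P073.Net (dyc dyo)
open Vale.Agent.P073.St (V Mat IsBoundedDomain IsSobolev)
open Vale.Agent.P073.SQ (ev)
open Vale.Agent.P073.H194 (idx sInt)

variable {E : Type*} [NormedAddCommGroup E]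

/-- **(EDGE-LEB, p)** at the point `x`, for the origin `v`, along the generations `nn`. -/
def EdgeLebP (p : ℝ) (v : V) (nn : ℕ → ℕ) (G : V → E) (x : V) : Prop :=
  ∀ (j : ℕ) (δ : ℝ≥0∞), δ ≠ 0 → ∀ᶠ l in atTop, ∀ e : Idx × Fin 3, e.1.1 = nn l + j →
    edge v e ⊆ dyc v (nn l) (idx v (nn l) x) →
    eInt v e (fun y => ‖G y - G x‖ₑ ^ p) ≤ δ * ENNReal.ofReal (1 / 2 ^ nn l)

theorem EdgeLebP.comp {p : ℝ} {v : V} {nn : ℕ → ℕ} {G : V → E} {x : V}
    (h : EdgeLebP p v nn G x) {φ : ℕ → ℕ} (hφ : StrictMono φ) :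
    EdgeLebP p v (fun l => nn (φ l)) G x := fun j δ hδ =>
  hφ.tendsto_atTop.eventually (h j δ hδ)

/-- average over the edge number `(a, k)` of generation `n + j` in the cube of generation `n` which
contains `x` -/
noncomputable def Ke (p : ℝ) (G : V → E) (a : Fin 3 → ℤ) (k : Fin 3) (j n : ℕ) (q : V × V) :
    ℝ≥0∞ :=
  ∫⁻ t in Icc (0:ℝ) 1, ‖G (q.1 + H79.Pt a k j n (q.2 - q.1) t) - G q.2‖ₑ ^ p

theorem measurable_Ke (p : ℝ) {G : V → E} (hG : StronglyMeasurable G) (a : Fin 3 → ℤ) (k : Fin 3)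
    (j n : ℕ) : Measurable (Ke p G a k j n) := by
  have hP := H79.measurable_Pt a k j n
  unfold Ke
  generalize H79.Pt a k j n = P at hP ⊢
  have h1 : Measurable fun q : (V × V) × ℝ => q.1.1 + P (q.1.2 - q.1.1) q.2 :=
    (measurable_fst.comp measurable_fst).add (hP.comp
      (((measurable_snd.comp measurable_fst).sub (measurable_fst.comp measurable_fst)).prodMk
        measurable_snd))
  have h2 : Measurable fun q : (V × V) × ℝ => q.1.2 := measurable_snd.comp measurable_fst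
  have h3 : Measurable fun q : (V × V) × ℝ =>
      ‖G (q.1.1 + P (q.1.2 - q.1.1) q.2) - G q.1.2‖ₑ ^ p := meas_diffP hG p h1 h2
  exact h3.lintegral_prod_right'

/-- the main estimate for an abstract position function `P` -/
theorem lintegral_auxE {p : ℝ} {G : V → E} (hG : StronglyMeasurable G) {P : V → ℝ → V}
    (hP : Measurable fun p : V × ℝ => P p.1 p.2) {η : ℝ≥0∞} {δ : ℝ}
    (hs : ∀ h : V, ‖h‖ < δ → ∫⁻ x, ‖G (x + h) - G x‖ₑ ^ p ≤ η)
    (hPy : ∀ y, ∀ t ∈ Icc (0:ℝ) 1, ‖P y t - y‖ < δ) (R : ℕ) :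
    ∫⁻ v in Icc (0:V) 1, ∫⁻ x, (closedBall (0:V) (R:ℝ)).indicator
      (fun x => ∫⁻ t in Icc (0:ℝ) 1, ‖G (v + P (x - v) t) - G x‖ₑ ^ p) x ≤
      η * volume (closedBall (0:V) (R + 1 : ℝ)) := by
  set B : Set V := closedBall (0:V) (R + 1 : ℝ) with hB
  have hBm : MeasurableSet B := measurableSet_closedBall
  set f : V → V → ℝ≥0∞ := fun v y =>
    ∫⁻ t in Icc (0:ℝ) 1, ‖G (v + P y t) - G (v + y)‖ₑ ^ p with hf
  have hfm : Measurable fun p : V × V => f p.1 p.2 := by
    have h1 : Measurable fun q : (V × V) × ℝ => q.1.1 + P q.1.2 q.2 :=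
      (measurable_fst.comp measurable_fst).add (hP.comp
        ((measurable_snd.comp measurable_fst).prodMk measurable_snd))
    have h2 : Measurable fun q : (V × V) × ℝ => q.1.1 + q.1.2 := by fun_prop
    have h3 : Measurable fun q : (V × V) × ℝ =>
        ‖G (q.1.1 + P q.1.2 q.2) - G (q.1.1 + q.1.2)‖ₑ ^ p := meas_diffP hG p h1 h2
    exact h3.lintegral_prod_right'
  calc ∫⁻ v in Icc (0:V) 1, ∫⁻ x, (closedBall (0:V) (R:ℝ)).indicator
          (fun x => ∫⁻ t in Icc (0:ℝ) 1, ‖G (v + P (x - v) t) - G x‖ₑ ^ p) x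
      ≤ ∫⁻ v in Icc (0:V) 1, ∫⁻ y in B, f v y := by
        refine setLIntegral_mono' measurableSet_Icc fun v hv => ?_
        rw [← lintegral_add_left_eq_self _ v, ← lintegral_indicator hBm]
        refine lintegral_mono fun y => ?_
        by_cases h : v + y ∈ closedBall (0:V) (R:ℝ)
        · have h1 : y ∈ B := by
            rw [hB, mem_closedBall, dist_zero_right]
            rw [mem_closedBall, dist_zero_right] at h
            have h2 : ‖v‖ ≤ 1 := by
              rw [pi_norm_le_iff_of_nonneg zero_le_one]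
              intro i
              rw [Real.norm_eq_abs, abs_of_nonneg (hv.1 i)]
              exact hv.2 i
            calc ‖y‖ = ‖(v + y) - v‖ := by rw [add_sub_cancel_left]
              _ ≤ ‖v + y‖ + ‖v‖ := norm_sub_le _ _
              _ ≤ R + 1 := add_le_add h h2
          rw [indicator_of_mem h, indicator_of_mem h1]
          simp only [hf, add_sub_cancel_left]
          exact le_refl _
        · rw [indicator_of_notMem h]
          exact zero_le
    _ ≤ ∫⁻ v : V, ∫⁻ y in B, f v y := setLIntegral_le_lintegral _ _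
    _ = ∫⁻ y in B, ∫⁻ v, f v y := lintegral_lintegral_swap hfm.aemeasurable
    _ ≤ ∫⁻ _y in B, η := by
        refine lintegral_mono fun y => ?_
        have h1 : Measurable fun q : V × ℝ => q.1 + P y q.2 :=
          measurable_fst.add (hP.comp (measurable_const.prodMk measurable_snd))
        have h2 : Measurable fun q : V × ℝ => q.1 + y := by fun_prop
        have h3 : Measurable fun q : V × ℝ => ‖G (q.1 + P y q.2) - G (q.1 + y)‖ₑ ^ p :=
          meas_diffP hG p h1 h2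
        simp only [hf]
        rw [lintegral_lintegral_swap h3.aemeasurable]
        calc ∫⁻ t in Icc (0:ℝ) 1, ∫⁻ v, ‖G (v + P y t) - G (v + y)‖ₑ ^ p
            ≤ ∫⁻ _t in Icc (0:ℝ) 1, η := by
              refine setLIntegral_mono' measurableSet_Icc fun t ht => ?_
              have h5 := lintegral_add_right_eq_self (μ := (volume : Measure V))
                (fun v => ‖G (v + (P y t - y)) - G v‖ₑ ^ p) y
              have h6 : ∀ v, v + y + (P y t - y) = v + P y t := fun v => by abel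
              simp only [h6] at h5
              rw [h5]
              exact hs _ (hPy y t ht)
          _ = η := by
              rw [setLIntegral_const, Real.volume_Icc]
              simp
    _ = η * volume B := by rw [setLIntegral_const]

theorem tendsto_Ke {p : ℝ} (hp : 1 ≤ p) {G : V → E} (hG : StronglyMeasurable G)
    (hGi : MemLp G (ENNReal.ofReal p) volume) (a : Fin 3 → ℤ) (k : Fin 3) (j : ℕ) (R : ℕ) :
    Tendsto (fun n => ∫⁻ q, ((Prod.snd : V × V → V) ⁻¹' closedBall (0:V) (R:ℝ)).indicator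
      (Ke p G a k j n) q ∂((volume.restrict (Icc (0:V) 1)).prod (volume : Measure V)))
      atTop (𝓝 0) := by
  set c : ℝ≥0∞ := volume (closedBall (0:V) (R + 1 : ℝ)) with hc
  have hct : c ≠ ⊤ := by
    rw [hc]
    exact (isCompact_closedBall (0:V) (R + 1 : ℝ)).measure_ne_top
  rw [ENNReal.tendsto_nhds_zero]
  intro ε hε
  obtain ⟨η, hη0, hη⟩ : ∃ η : ℝ≥0∞, 0 < η ∧ η * c ≤ ε := by
    by_cases h : c = 0
    · exact ⟨1, one_pos, by rw [h, mul_zero]; exact zero_le⟩
    · refine ⟨ε / c, ENNReal.div_pos hε.ne' hct, ?_⟩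
      rw [ENNReal.div_mul_cancel h hct]
  obtain ⟨δ, hδ, hs⟩ := exists_shiftP hp hGi hη0
  have hlim : Tendsto (fun n : ℕ => (2 + ∑ i, |(a i : ℝ)|) / 2 ^ n) atTop (𝓝 0) := by
    have h4 : Tendsto (fun n : ℕ => (1 / 2 ^ n : ℝ)) atTop (𝓝 0) := by
      have := tendsto_pow_atTop_nhds_zero_of_lt_one (r := (1 / 2 : ℝ)) (by norm_num) (by norm_num)
      simpa [one_div_pow] using this
    have := h4.const_mul (2 + ∑ i, |(a i : ℝ)|)
    rw [mul_zero] at this
    refine this.congr fun n => by ring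
  filter_upwards [hlim.eventually_lt_const hδ] with n hn
  have hm : Measurable (((Prod.snd : V × V → V) ⁻¹' closedBall (0:V) (R:ℝ)).indicator
      (Ke p G a k j n)) :=
    (measurable_Ke p hG a k j n).indicator (measurableSet_closedBall.preimage measurable_snd)
  rw [lintegral_prod _ hm.aemeasurable]
  refine le_trans ?_ hη
  exact lintegral_auxE hG (H79.measurable_Pt a k j n) hs
    (fun y t ht => (H79.norm_Pt_sub_le a k j n y ht).trans_lt hn) R

theorem eInt_eq_Ke {p : ℝ} {G : V → E} {v x : V} {n j : ℕ} {e : Idx × Fin 3}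
    (he : e.1.1 = n + j) :
    eInt v e (fun y => ‖G y - G x‖ₑ ^ p) = ENNReal.ofReal (1 / 2 ^ (n + j)) *
      Ke p G (fun i => e.1.2 i - 2 ^ j * idx v n x i) e.2 j n (v, x) := by
  unfold eInt Ke
  rw [he]
  congr 1
  refine lintegral_congr fun t => ?_
  have h1 : pt v (n + j) e.1.2 + t • ((1 / 2 ^ (n + j) : ℝ) • (ev e.2 : V)) =
      v + H79.Pt (fun i => e.1.2 i - 2 ^ j * idx v n x i) e.2 j n (x - v) t := by
    funext i
    simp only [Pi.add_apply, Pi.smul_apply, smul_eq_mul, pt, H79.Pt, Pi.sub_apply, idx]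
    have hn : (0:ℝ) < 2 ^ n := by positivity
    have hj : (0:ℝ) < 2 ^ j := by positivity
    have h2 : (ev e.2 : V) i = if i = e.2 then 1 else 0 := by
      by_cases h : i = e.2
      · subst h; simp [ev]
      · simp [ev, h]
    rw [h2, pow_add]
    push_cast
    split_ifs
    · field_simp; ring
    · field_simp; ring
  rw [h1]

/-- **(EDGE-LEB, p)** -/
theorem exists_edge_lebP {p : ℝ} (hp : 1 ≤ p) {G : V → E}
    (hG : MemLp G (ENNReal.ofReal p) volume) {M₀ : ℕ → ℕ} (hM₀ : StrictMono M₀) :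
    ∃ φ : ℕ → ℕ, StrictMono φ ∧ ∀ᵐ v ∂(volume.restrict (Icc (0:V) 1)), ∀ᵐ x : V,
      EdgeLebP p v (fun l => M₀ (φ l)) G x := by
  -- a measurable representative
  set G₁ : V → E := hG.1.mk G with hG₁
  have hG₁m : StronglyMeasurable G₁ := hG.1.stronglyMeasurable_mk
  have hGG : G =ᵐ[volume] G₁ := hG.1.ae_eq_mk
  have hG₁i : MemLp G₁ (ENNReal.ofReal p) volume := (memLp_congr_ae hGG).1 hG
  set N : Set V := {x | ¬ G x = G₁ x} with hN
  have hN0 : volume N = 0 := ae_iff.1 hGG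
  set μ : Measure (V × V) := (volume.restrict (Icc (0:V) 1)).prod volume with hμ
  set X : (ℕ × (Fin 3 → ℤ) × Fin 3 × ℕ) → ℕ → V × V → ℝ≥0∞ := fun τ n q =>
    ((Prod.snd : V × V → V) ⁻¹' closedBall (0:V) (τ.1:ℝ)).indicator
      (Ke p G₁ τ.2.1 τ.2.2.1 τ.2.2.2 n) q with hX
  obtain ⟨φ, hφ, hmain⟩ := H83.exists_generations' (μ := μ) X
    (fun τ n => ((measurable_Ke p hG₁m _ _ _ _).indicator
      (measurableSet_closedBall.preimage measurable_snd)).aemeasurable)
    (fun τ => tendsto_Ke hp hG₁m hG₁i τ.2.1 τ.2.2.1 τ.2.2.2 τ.1) hM₀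
  refine ⟨φ, hφ, ?_⟩
  have h1 := Measure.ae_ae_of_ae_prod hmain
  have h2 := ae_restrict_of_ae (s := Icc (0:V) 1) (H83.ae_rep hN0)
  filter_upwards [h1, h2] with v hv hvN
  filter_upwards [hv, hGG] with x hx hxG
  intro j δ hδ
  obtain ⟨R, hR⟩ := exists_nat_ge ‖x‖
  have hxR : x ∈ closedBall (0:V) (R:ℝ) := by rwa [mem_closedBall, dist_zero_right]
  have h3 : ∀ᶠ l in atTop, ∀ a ∈ H79.box j, ∀ k : Fin 3,
      Ke p G₁ a k j (M₀ (φ l)) (v, x) ≤ δ := by
    rw [Filter.eventually_all_finset]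
    intro a _
    rw [Filter.eventually_all]
    intro k
    have h4 := hx (R, a, k, j)
    simp only [hX] at h4
    have h5 : ∀ n, ((Prod.snd : V × V → V) ⁻¹' closedBall (0:V) ((R, a, k, j).1:ℝ)).indicator
        (Ke p G₁ a k j n) (v, x) = Ke p G₁ a k j n (v, x) := fun n =>
      indicator_of_mem (show (v, x) ∈ (Prod.snd : V × V → V) ⁻¹' closedBall (0:V) (R:ℝ) from hxR) _
    simp only [h5] at h4
    exact h4.eventually (ge_mem_nhds (pos_iff_ne_zero.2 hδ))
  filter_upwards [h3] with l hl e he hsub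
  have h6 : eInt v e (fun y => ‖G y - G x‖ₑ ^ p) = eInt v e (fun y => ‖G₁ y - G₁ x‖ₑ ^ p) := by
    refine (hvN _ _ fun y hy => ?_).1 e
    have h7 : G y = G₁ y := by
      by_contra h
      exact hy h
    rw [h7, hxG]
  rw [h6, eInt_eq_Ke he]
  have h8 := hl _ (H79.sub_mem_box he hsub) e.2
  calc ENNReal.ofReal (1 / 2 ^ (M₀ (φ l) + j)) * Ke p G₁ _ e.2 j (M₀ (φ l)) (v, x)
      ≤ ENNReal.ofReal (1 / 2 ^ M₀ (φ l)) * δ := by
        refine mul_le_mul' (ENNReal.ofReal_le_ofReal ?_) h8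
        exact one_div_le_one_div_of_le (by positivity)
          (pow_le_pow_right₀ (by norm_num) (Nat.le_add_right _ _))
    _ = δ * ENNReal.ofReal (1 / 2 ^ M₀ (φ l)) := mul_comm _ _

/-- **(EDGE-LEB, p)** for a Sobolev function -/
theorem exists_edge_lebP_sobolev {p : ℝ} {Ω : Set V} {f : V → V} {F : V → Mat} (hp : 1 ≤ p)
    (hΩ : IsBoundedDomain Ω) (hF : IsSobolev p Ω f F) {M₀ : ℕ → ℕ} (hM₀ : StrictMono M₀) :
    ∃ φ : ℕ → ℕ, StrictMono φ ∧ ∀ᵐ v ∂(volume.restrict (Icc (0:V) 1)), ∀ᵐ x : V,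
      EdgeLebP p v (fun l => M₀ (φ l)) (Ω.indicator fun x => cl (F x)) x :=
  exists_edge_lebP hp (memLp_indicator_cl hΩ hF) hM₀

/-- the form used for good boxes -/
theorem EdgeLebP.own {p : ℝ} {Ω : Set V} {F : V → Mat} {v x : V} {nn : ℕ → ℕ}
    (h : EdgeLebP p v nn (Ω.indicator fun x => cl (F x)) x) (hΩ : IsOpen Ω) (hx : x ∈ Ω)
    (hnn : StrictMono nn) (j : ℕ) {κ : ℝ} (hκ : 0 < κ) :
    ∀ᶠ l in atTop, dyc v (nn l) (idx v (nn l) x) ⊆ Ω ∧ ∀ e : Idx × Fin 3, e.1.1 = nn l + j →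
      edge v e ⊆ dyc v (nn l) (idx v (nn l) x) →
      eInt v e (fun y => ‖cl (F y) - cl (F x)‖ₑ ^ p) ≤ ENNReal.ofReal (κ / 2 ^ (nn l + j)) := by
  have hj : (0:ℝ) < 2 ^ j := by positivity
  filter_upwards [h j (ENNReal.ofReal (κ / 2 ^ j)) (by
    rw [Ne, ENNReal.ofReal_eq_zero, not_le]
    positivity), H79.eventually_dyc_subset hΩ hx v hnn] with l hl hsub
  refine ⟨hsub, fun e he hes => ?_⟩
  refine le_trans ?_ ((hl e he hes).trans (le_of_eq ?_))
  · unfold eInt
    refine mul_le_mul' le_rfl (lintegral_mono_ae ?_)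
    filter_upwards [ae_restrict_mem measurableSet_Icc] with t ht
    have h1 : pt v e.1.1 e.1.2 + t • ((1 / 2 ^ e.1.1 : ℝ) • (ev e.2 : V)) ∈ edge v e := by
      rw [edge, segment_eq_image']
      exact ⟨t, ht, by simp⟩
    have h2 := hsub (hes h1)
    rw [indicator_of_mem h2, indicator_of_mem hx]
  · rw [← ENNReal.ofReal_mul (by positivity)]
    congr 1
    rw [pow_add]
    field_simp

end Vale.Agent.P073.H523
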