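import Vale.Agent.P073.H523.BeamFin
import Vale.Agent.P073.H439.EnerB
import Vale.Agent.P073.H732.XLine
import Vale.Agent.P073.H253.LineG
import Vale.Agent.P073.H687.BeamT

/-!
# P073, rank one, `2 ≤ p < 3`, [LINE-P]: the collapse near the image of the line
-/

namespace Vale.Agent.P073.H523

open MeasureTheory Set Filter Topology Metric Vale.Agent.P073.St Vale.Agent.P073.AB
open Vale.Agent.P073.SQ (ev)
open Vale.Agent.P073.H194 (RgN cW)
open Vale.Agent.P073.H235 (Bx bm fl Co cmp cmpD P1)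
open Vale.Agent.P073.H253 (ledge BVData lpt lpt_add mem_ledge eInt_ledge jv iv SpecBeamCol)
open Vale.Agent.P073.H732 (upz P1_ev0)
open _root_.P073 (ConHomeo)
open scoped ENNReal

theorem continuous_lpt (c₁ c₂ : ℝ) : Continuous fun u : ℝ => lpt c₁ c₂ u := by
  refine continuous_pi fun i => ?_
  fin_cases i
  · exact continuous_id
  · exact continuous_const
  · exact continuous_const

/-- absolute continuity on a line, in the parameter of the line -/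
theorem line_ac {g : V → V} {F : V → V →L[ℝ] V} {c₁ c₂ A L : ℝ} (hL : 0 < L)
    (h : HB.GoodSeg g F (lpt c₁ c₂ A) (L • ev 0)) :
    IntervalIntegrable (fun u => F (lpt c₁ c₂ u) (ev 0)) volume A (A + L) ∧
    ∀ t ∈ Icc A (A + L), g (lpt c₁ c₂ t) = g (lpt c₁ c₂ A) +
      ∫ u in A..t, F (lpt c₁ c₂ u) (ev 0) := by
  obtain ⟨h1, h2⟩ := h
  have hpt : ∀ s : ℝ, lpt c₁ c₂ A + s • (L • ev 0) = lpt c₁ c₂ (A + L * s) := by
    intro s
    rw [smul_smul, lpt_add, mul_comm]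
  constructor
  · have h3 : IntervalIntegrable (fun s : ℝ => L⁻¹ • (F (lpt c₁ c₂ A + s • (L • ev 0)) (L • ev 0)))
        volume 0 1 := h1.smul L⁻¹
    have h4 : (fun s : ℝ => L⁻¹ • (F (lpt c₁ c₂ A + s • (L • ev 0)) (L • ev 0))) =
        fun s => (fun u => F (lpt c₁ c₂ u) (ev 0)) (A + L * s) := by
      funext s
      rw [hpt, map_smul, smul_smul, inv_mul_cancel₀ hL.ne', one_smul]
    rw [h4] at h3
    have h5 := (h3.comp_mul_right (c := L⁻¹)).comp_sub_right A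
    have e1 : (0:ℝ) / L⁻¹ + A = A := by simp
    have e2 : (1:ℝ) / L⁻¹ + A = A + L := by rw [one_div, inv_inv, add_comm]
    rw [e1, e2] at h5
    have e3 : (fun x : ℝ => (fun s : ℝ => (fun u => F (lpt c₁ c₂ u) (ev 0)) (A + L * s))
        ((x - A) * L⁻¹)) = fun u => F (lpt c₁ c₂ u) (ev 0) := by
      funext x
      have : A + L * ((x - A) * L⁻¹) = x := by field_simp; ring
      simp only [this]
    rw [← e3]
    exact h5
  · intro t ht
    have h3 := h2 ((t - A) / L) ⟨div_nonneg (by linarith [ht.1]) hL.le, by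
      rw [div_le_one hL]; linarith [ht.2]⟩
    have e1 : A + L * ((t - A) / L) = t := by field_simp; ring
    rw [hpt, e1] at h3
    rw [h3]
    congr 1
    have h4 : (fun s : ℝ => F (lpt c₁ c₂ A + s • (L • ev 0)) (L • ev 0)) =
        fun s => L • (fun u => F (lpt c₁ c₂ u) (ev 0)) (A + L * s) := by
      funext s
      rw [hpt, map_smul]
    rw [h4, intervalIntegral.integral_smul,
      intervalIntegral.smul_integral_comp_add_mul (fun u => F (lpt c₁ c₂ u) (ev 0)) L A, mul_zero,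
      add_zero, e1]

/-- the intervals of the line cover the interval -/
theorem cover_jv {v₀ : ℝ} {m : ℕ} {z₀ z₁ : ℤ} {u : ℝ}
    (hu : u ∈ Icc (v₀ + z₀ / 2 ^ m) (v₀ + z₁ / 2 ^ m)) (hz : z₀ < z₁) :
    ∃ k ∈ Finset.Ico z₀ z₁, u ∈ jv v₀ (1 / 2 ^ m) k := by
  have hp : (0:ℝ) < 2 ^ m := by positivity
  obtain ⟨h1, h2⟩ := hu
  have h1' : (z₀ : ℝ) ≤ (u - v₀) * 2 ^ m := by
    have : (z₀ : ℝ) / 2 ^ m ≤ u - v₀ := by linarith
    rwa [div_le_iff₀ hp] at this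
  have h2' : (u - v₀) * 2 ^ m ≤ z₁ := by
    have : u - v₀ ≤ (z₁ : ℝ) / 2 ^ m := by linarith
    rwa [le_div_iff₀ hp] at this
  rcases eq_or_lt_of_le h2' with h | h
  · refine ⟨z₁ - 1, Finset.mem_Ico.2 ⟨by omega, by omega⟩, ?_, ?_⟩
    · show v₀ + ((z₁ - 1 : ℤ) : ℝ) * (1 / 2 ^ m) ≤ u
      push_cast
      rw [← h, mul_one_div, add_div' _ _ _ hp.ne', div_le_iff₀ hp]
      linarith
    · show u ≤ v₀ + (((z₁ - 1 : ℤ) : ℝ) + 1) * (1 / 2 ^ m)
      push_cast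
      rw [sub_add_cancel, ← h, mul_one_div, add_div' _ _ _ hp.ne', le_div_iff₀ hp]
      linarith
  · refine ⟨⌊(u - v₀) * 2 ^ m⌋, Finset.mem_Ico.2 ⟨Int.le_floor.2 h1', ?_⟩, ?_, ?_⟩
    · have := (Int.floor_le ((u - v₀) * 2 ^ m)).trans_lt h
      exact_mod_cast this
    · show v₀ + (⌊(u - v₀) * 2 ^ m⌋ : ℝ) * (1 / 2 ^ m) ≤ u
      have := Int.floor_le ((u - v₀) * 2 ^ m)
      rw [mul_one_div, add_div' _ _ _ hp.ne', div_le_iff₀ hp]
      linarith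
    · show u ≤ v₀ + ((⌊(u - v₀) * 2 ^ m⌋ : ℝ) + 1) * (1 / 2 ^ m)
      have := Int.lt_floor_add_one ((u - v₀) * 2 ^ m)
      rw [mul_one_div, add_div' _ _ _ hp.ne', le_div_iff₀ hp]
      linarith

theorem upz_div' {m n : ℕ} (h : m ≤ n) (k : ℤ) : (upz m n k : ℝ) / 2 ^ n = k / 2 ^ m := by
  obtain ⟨d, rfl⟩ := Nat.exists_eq_add_of_le h
  unfold upz
  rw [Nat.add_sub_cancel_left, pow_add]
  push_cast
  field_simp

/-- **[LINE-P]** -/
theorem specLineW {p : ℝ} (hp : 1 ≤ p) : SpecLineW p := by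
  intro ε hε
  obtain ⟨κc, hκc, H⟩ := H687.BeamT.specBeamCol ε hε
  set t : ℝ := κc / 2 with ht
  have ht0 : 0 < t := by positivity
  have hs0 : 0 < t ^ (1 - p) := Real.rpow_pos_of_pos ht0 _
  refine ⟨t / t ^ (1 - p), by positivity, ?_⟩
  intro θ₁ θ₂ κ m₀ Λ f F hθ₁ hθ₁4 hθ₂ hθ₂4 hκ hκP hΛ hhom D z₀ z₁ hz hz1 hedge
  obtain ⟨-, -, -, -, -, -, hline⟩ := H439.EN.specEnerB p θ₁ θ₂ κ m₀ Λ f F hp hθ₁ hθ₁4 hθ₂ hθ₂4 D
  set U : Set V := Bx (bm θ₁ θ₂) with hU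
  set fc : V → V := cmp (bm θ₁ θ₂) f with hfc
  set Fc : V → Mat := cmpD (bm θ₁ θ₂) F with hFc
  set c₁ : ℝ := D.v 1 + D.B₁ / 2 ^ m₀ with hc₁
  set c₂ : ℝ := D.v 2 + D.B₂ / 2 ^ m₀ with hc₂
  have hp2 : (0:ℝ) < 2 ^ m₀ := by positivity
  have hzR : (z₀ : ℝ) < z₁ := by exact_mod_cast hz
  set A : ℝ := D.v 0 + z₀ / 2 ^ m₀ with hA
  set L : ℝ := (z₁ - z₀ : ℝ) / 2 ^ m₀ with hL
  have hL0 : 0 < L := div_pos (by linarith) hp2
  have hAL : A + L = D.v 0 + z₁ / 2 ^ m₀ := by rw [hA, hL]; ring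
  -- the points of the line
  have hmem : ∀ u ∈ Icc A (A + L), lpt c₁ c₂ u ∈ U := by
    intro u hu
    rw [hAL] at hu
    obtain ⟨k, hk, hu'⟩ := cover_jv hu hz
    exact hedge k hk (mem_ledge.2 ⟨u, hu', rfl⟩)
  have hfΛ : ∀ x ∈ U, fc x ∈ Λ := by
    obtain ⟨g, hg, -, -⟩ := hhom
    exact fun x hx => (hg.1 x hx).1
  have hfcc : ContinuousOn fc U := by
    obtain ⟨g, -, hg, -⟩ := hhom
    exact hg
  -- absolute continuity
  have hrat : HB.GoodSeg fc (fun x => cl (Fc x)) (lpt c₁ c₂ A) (L • ev 0) := by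
    have h1 := D.rat (lpt c₁ c₂ A) (lpt c₁ c₂ (A + L)) ?_ ?_ ?_
    · have e : lpt c₁ c₂ (A + L) - lpt c₁ c₂ A = L • ev 0 := by
        rw [← lpt_add c₁ c₂ A L, add_sub_cancel_left]
      rw [e] at h1
      exact h1
    · intro k
      fin_cases k
      · exact ⟨(z₀ : ℚ) / 2 ^ m₀, by simp [lpt, hA]⟩
      · exact ⟨(D.B₁ : ℚ) / 2 ^ m₀, by simp [lpt, hc₁]⟩
      · exact ⟨(D.B₂ : ℚ) / 2 ^ m₀, by simp [lpt, hc₂]⟩
    · intro k
      fin_cases k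
      · exact ⟨(z₁ : ℚ) / 2 ^ m₀, by simp [lpt, hAL]⟩
      · exact ⟨(D.B₁ : ℚ) / 2 ^ m₀, by simp [lpt, hc₁]⟩
      · exact ⟨(D.B₂ : ℚ) / 2 ^ m₀, by simp [lpt, hc₂]⟩
    · rw [segment_eq_image']
      rintro _ ⟨s, ⟨hs0, hs1⟩, rfl⟩
      have e1 : lpt c₁ c₂ A + s • (lpt c₁ c₂ (A + L) - lpt c₁ c₂ A) = lpt c₁ c₂ (A + s * L) := by
        rw [← lpt_add c₁ c₂ A L, add_sub_cancel_left, smul_smul, lpt_add]
      show lpt c₁ c₂ A + s • (lpt c₁ c₂ (A + L) - lpt c₁ c₂ A) ∈ Bx (bm θ₁ θ₂)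
      rw [e1]
      refine hmem _ ⟨by nlinarith, by nlinarith⟩
  obtain ⟨hint, hform⟩ := line_ac hL0 hrat
  set φ : ℝ → V := fun u => cl (Fc (lpt c₁ c₂ u)) (ev 0) with hφ
  set ψ : ℝ → ℝ := fun u => ‖φ u - ev 0‖ with hψ
  have hle : A ≤ A + L := by linarith
  have hint' : IntervalIntegrable (fun u => φ u - ev 0) volume A (A + L) :=
    hint.sub intervalIntegrable_const
  have hψi : IntegrableOn ψ (Icc A (A + L)) := by
    rw [integrableOn_Icc_iff_integrableOn_Ioc, ← intervalIntegrable_iff_integrableOn_Ioc_of_le hle]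
    exact hint'.norm
  have hdiff : ∀ s t', A ≤ s → s ≤ t' → t' ≤ A + L →
      ‖(fc (lpt c₁ c₂ t') - t' • ev 0) - (fc (lpt c₁ c₂ s) - s • ev 0)‖ ≤
        ∫ x in s..t', ψ x := by
    intro s t' hs hst ht'
    have i1 : IntervalIntegrable φ volume A s := hint.mono_set (by
      rw [uIcc_of_le hs, uIcc_of_le hle]; exact Icc_subset_Icc le_rfl (hst.trans ht'))
    have i2 : IntervalIntegrable φ volume s t' := hint.mono_set (by
      rw [uIcc_of_le hst, uIcc_of_le hle]; exact Icc_subset_Icc hs ht')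
    have h1 := hform t' ⟨hs.trans hst, ht'⟩
    have h2 := hform s ⟨hs, hst.trans ht'⟩
    have h3 : (∫ u in A..t', φ u) - ∫ u in A..s, φ u = ∫ u in s..t', φ u := by
      rw [← intervalIntegral.integral_add_adjacent_intervals i1 i2, add_sub_cancel_left]
    have h4 : (fc (lpt c₁ c₂ t') - t' • ev 0) - (fc (lpt c₁ c₂ s) - s • ev 0) =
        ∫ u in s..t', (φ u - ev 0) := by
      rw [intervalIntegral.integral_sub i2 intervalIntegrable_const,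
        intervalIntegral.integral_const, ← h3, h1, h2, sub_smul]
      abel
    rw [h4]
    exact intervalIntegral.norm_integral_le_integral_norm hst
  -- the total
  have htot : ∫ x in Icc A (A + L), ψ x ≤ κc := by
    rw [← ENNReal.ofReal_le_ofReal_iff hκc.le,
      ofReal_integral_eq_lintegral_ofReal hψi (Eventually.of_forall fun u => norm_nonneg _)]
    have h1 : ∫⁻ u in Icc A (A + L), ENNReal.ofReal (ψ u) ≤
        ∑ k ∈ Finset.Ico z₀ z₁, ∫⁻ u in jv (D.v 0) (1 / 2 ^ m₀) k, ENNReal.ofReal (ψ u) := by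
      have hsub : Icc A (A + L) ⊆ ⋃ k : {k // k ∈ Finset.Ico z₀ z₁},
          jv (D.v 0) (1 / 2 ^ m₀) k.1 := by
        intro u hu
        rw [hAL] at hu
        obtain ⟨k, hk, hu'⟩ := cover_jv hu hz
        exact mem_iUnion.2 ⟨⟨k, hk⟩, hu'⟩
      refine (lintegral_mono_set hsub).trans ((lintegral_iUnion_le _ _).trans ?_)
      rw [tsum_fintype, Finset.sum_coe_sort (Finset.Ico z₀ z₁)
        fun k => ∫⁻ u in jv (D.v 0) (1 / 2 ^ m₀) k, ENNReal.ofReal (ψ u)]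
    have h2 : ∀ k, ∫⁻ u in jv (D.v 0) (1 / 2 ^ m₀) k, ENNReal.ofReal (ψ u) ≤
        eInt D.v (ledge m₀ D.B₁ D.B₂ k) (fun x => ‖cl (Fc x) - P1‖ₑ) := by
      intro k
      rw [eInt_ledge]
      refine lintegral_mono fun u => ?_
      show ENNReal.ofReal ‖cl (Fc (lpt c₁ c₂ u)) (ev 0) - ev 0‖ ≤ ‖cl (Fc (lpt c₁ c₂ u)) - P1‖ₑ
      have e1 : cl (Fc (lpt c₁ c₂ u)) (ev 0) - ev 0 = (cl (Fc (lpt c₁ c₂ u)) - P1) (ev 0) := by
        rw [sub_apply, P1_ev0]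
      rw [e1, ofReal_norm, enorm_le_iff_norm_le]
      have := (cl (Fc (lpt c₁ c₂ u)) - P1).le_opNorm (ev 0)
      rwa [S293.ev_norm, mul_one] at this
    refine (h1.trans (Finset.sum_le_sum fun k _ => h2 k)).trans ?_
    have h3 := (hline m₀ D.B₁ D.B₂ (Finset.Ico z₀ z₁) hedge).2 t ht0
    refine h3.trans ?_
    have h4 := D.line (Finset.Ico z₀ z₁) hedge
    have hcard : ((Finset.Ico z₀ z₁).card : ℝ) / 2 ^ m₀ = L := by
      rw [Int.card_Ico, hL]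
      congr 1
      have : ((z₁ - z₀).toNat : ℤ) = z₁ - z₀ := Int.toNat_of_nonneg (by omega)
      exact_mod_cast this
    rw [hcard]
    calc ENNReal.ofReal (t * L) + ENNReal.ofReal (t ^ (1 - p)) *
          ∑ k ∈ Finset.Ico z₀ z₁, eInt D.v (ledge m₀ D.B₁ D.B₂ k) D.H₁
        ≤ ENNReal.ofReal t + ENNReal.ofReal (t ^ (1 - p)) * ENNReal.ofReal κ := by
          gcongr
          nlinarith
      _ ≤ ENNReal.ofReal t + ENNReal.ofReal t := by
          gcongr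
          rw [← ENNReal.ofReal_mul hs0.le]
          apply ENNReal.ofReal_le_ofReal
          rw [le_div_iff₀ hs0] at hκP
          linarith
      _ = ENNReal.ofReal κc := by
          rw [← ENNReal.ofReal_add ht0.le ht0.le]
          congr 1
          rw [ht]; ring
  -- the collapse
  obtain ⟨n₀, hn₀⟩ := H (D.v 0) m₀ z₀ z₁ Λ (fun u => fc (lpt c₁ c₂ u)) ψ hz hz1 hΛ.1
    (by
      rw [← hAL]
      exact hfcc.comp (continuous_lpt c₁ c₂).continuousOn hmem)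
    (by
      rw [← hAL]
      exact fun u hu => hfΛ _ (hmem u hu))
    (by rw [← hAL]; exact hψi) (fun u => norm_nonneg _)
    (by rw [← hAL]; exact hdiff) (by rw [← hAL]; exact htot)
  refine ⟨n₀, fun n₃ hn₃ hmn => ?_⟩
  obtain ⟨G, mt₀, K, hKΛ, hK, hG1, hG2, hT⟩ := hn₀ n₃ hn₃
  have hp3 : (0:ℝ) < 2 ^ n₃ := by positivity
  refine ⟨G, mt₀, K, hKΛ, hK, fun k hk => ?_, hG2, fun mt hmt δ hδ => ?_⟩
  · have h1 := hG1 k hk
    have h2 : D.v 0 + (k : ℝ) / 2 ^ n₃ ∈ iv (D.v 0) n₃ k := by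
      refine ⟨le_rfl, ?_⟩
      show D.v 0 + (k : ℝ) / 2 ^ n₃ ≤ D.v 0 + ((k : ℝ) + 1) / 2 ^ n₃
      gcongr
      linarith
    have h3 : D.v 0 + ((k : ℝ) + 1) / 2 ^ n₃ ∈ iv (D.v 0) n₃ k := by
      refine ⟨?_, le_rfl⟩
      show D.v 0 + (k : ℝ) / 2 ^ n₃ ≤ D.v 0 + ((k : ℝ) + 1) / 2 ^ n₃
      gcongr
      linarith
    have h4 := (h1 h2).1
    have h5 := (h1 h3).2
    rw [← upz_div' hmn z₀] at h4
    rw [← upz_div' hmn z₁] at h5
    have h6 : ((upz m₀ n₃ z₀ : ℤ) : ℝ) / 2 ^ n₃ ≤ (k : ℝ) / 2 ^ n₃ := by linarith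
    have h7 : ((k : ℝ) + 1) / 2 ^ n₃ ≤ ((upz m₀ n₃ z₁ : ℤ) : ℝ) / 2 ^ n₃ := by linarith
    rw [div_le_div_iff_of_pos_right hp3] at h6 h7
    have h8 : upz m₀ n₃ z₀ ≤ k := by exact_mod_cast h6
    have h9 : k + 1 ≤ upz m₀ n₃ z₁ := by exact_mod_cast h7
    exact Finset.mem_Ico.2 ⟨h8, by omega⟩
  · obtain ⟨T, r, hr, t1, t2, -, t4, t5⟩ := hT mt hmt δ hδ
    refine ⟨T, r, hr, t1, t2, t4, fun k hk => ?_⟩
    obtain ⟨tt, htt⟩ := t5 k hk
    refine ⟨tt, fun x hx y hy hyx => ?_⟩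
    obtain ⟨u, hu, rfl⟩ := mem_ledge.1 hx
    rw [upz_div' hmn, upz_div' hmn] at hyx
    refine htt u ?_ y hy hyx
    obtain ⟨h1, h2⟩ := hu
    refine ⟨?_, ?_⟩
    · rw [div_eq_mul_one_div]; exact h1
    · rw [div_eq_mul_one_div]; exact h2

end Vale.Agent.P073.H523
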