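import Vale.Agent.P073.H523.SumPas

/-!
# P073, block B10, [SUM-LOC]: the sums over the passive cubes which meet a set
-/

namespace Vale.Agent.P073.H523

open MeasureTheory Set Filter Topology Metric Vale.Agent.P073.St
open Vale.Agent.P073.AB Vale.Agent.P073.AB.P86
open Vale.Agent.P073.H73 (MinEdge)
open Vale.Agent.P073.H194 (cellT face_sub)
open Vale.Agent.P073.H696 (blk blkS solid part1 Dom IsNear nSq)
open _root_.P073.Net (dyc dyo)
open scoped ENNReal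

variable {Ω : Set V} {v : V} {I K : Set Idx} {n N N' k₁ : Idx → ℕ}

/-- **[SUM-LOC]** the sum over the passive cubes which meet `A`; `X` bounds the cubes of `I`
outside of the boxes which meet `A` (field `outL` of `H239.DomL`). -/
theorem sum_pas_loc {H : V → ℝ≥0∞} {r : V → ℝ} {εD : ℝ≥0∞} {tolD : Idx → ℝ≥0∞}
    (Dm : Dom Ω v H K n N r εD tolD I N') {C₂ : ℝ} {B Eq : Idx → ℝ} (tol : Idx → ℝ≥0∞)
    (h1 : ∀ q, (∀ k ∈ K, ¬ dyc v q.1 q.2 ⊆ dyc v k.1 k.2) → Eq q ≤ C₂)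
    (h2 : ∀ k ∈ K, ∀ q : Idx, dyc v q.1 q.2 ⊆ dyc v k.1 k.2 → Eq q ≤ B k) (A : Set V)
    {X : ℝ≥0∞} (hX : ∑' q : {q : Idx // q ∈ I ∧ (∀ k ∈ K, ¬ dyc v q.1 q.2 ⊆ dyc v k.1 k.2) ∧
      (dyc v q.1 q.2 ∩ A).Nonempty}, cellT v I univ H q.1 ≤ X) :
    ∑' q : {q : Idx // q ∈ part1 v K n k₁ I \ solid v K n (part1 v K n k₁ I) ∧
        (dyc v q.1 q.2 ∩ A).Nonempty},
      ENNReal.ofReal (Eq q.1) * (cellT v (part1 v K n k₁ I) univ H q.1 +
        nSq v (part1 v K n k₁ I) q.1 * tol q.1) ≤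
      ENNReal.ofReal C₂ * X +
      (∑' k : {k : Idx // k ∈ K ∧ (dyc v k.1 k.2 ∩ A).Nonempty}, ENNReal.ofReal (B k.1) *
        (36 * (∫⁻ y in dyc v k.1.1 k.1.2 \ blkS v k.1 (n k.1), H y) + tolD k.1)) +
      ∑' q : {q : Idx // q ∈ part1 v K n k₁ I \ solid v K n (part1 v K n k₁ I) ∧
          (dyc v q.1 q.2 ∩ A).Nonempty},
        ENNReal.ofReal (Eq q.1) * (nSq v (part1 v K n k₁ I) q.1 * tol q.1) := by
  set I₁ := part1 v K n k₁ I with hI₁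
  set S := solid v K n I₁ with hS
  simp only [mul_add]
  rw [ENNReal.tsum_add]
  gcongr
  simp only [← mul_add]
  -- the cubes outside of the boxes and in the boxes
  set f : Idx → ℝ≥0∞ := fun q => ENNReal.ofReal (Eq q) * cellT v I₁ univ H q with hf
  set AA : Set Idx := {q | q ∈ I₁ \ S ∧ (dyc v q.1 q.2 ∩ A).Nonempty} with hAA
  set O : Set Idx := {q | q ∈ AA ∧ ∀ k ∈ K, ¬ dyc v q.1 q.2 ⊆ dyc v k.1 k.2} with hO
  set Bx : {k : Idx // k ∈ K ∧ (dyc v k.1 k.2 ∩ A).Nonempty} → Set Idx := fun k =>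
    {q | q ∈ I₁ \ S ∧ dyc v q.1 q.2 ⊆ dyc v k.1.1 k.1.2} with hBx
  have hcov : AA ⊆ O ∪ ⋃ k, Bx k := by
    intro q hq
    by_cases h : ∀ k ∈ K, ¬ dyc v q.1 q.2 ⊆ dyc v k.1 k.2
    · exact Or.inl ⟨hq, h⟩
    · push Not at h
      obtain ⟨k, hk, h⟩ := h
      exact Or.inr (mem_iUnion.2 ⟨⟨k, hk, hq.2.mono (inter_subset_inter_left _ h)⟩, hq.1, h⟩)
  refine (tsum_le_of_cover AA O Bx f hcov).trans
    (add_le_add ?_ (ENNReal.tsum_le_tsum fun k => ?_))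
  · -- outside
    have h3 : ∑' q : O, f q ≤ ∑' q : O, ENNReal.ofReal C₂ * cellT v I univ H q.1 := by
      refine ENNReal.tsum_le_tsum fun q => ?_
      simp only [hf]
      rw [(pas_cellT q.2.1.1 H).2]
      gcongr
      exact h1 _ q.2.2
    refine h3.trans ?_
    rw [ENNReal.tsum_mul_left]
    gcongr
    refine le_trans ?_ hX
    exact ENNReal.tsum_mono_subtype (fun q => cellT v I univ H q)
      (show O ⊆ {q : Idx | q ∈ I ∧ (∀ k ∈ K, ¬ dyc v q.1 q.2 ⊆ dyc v k.1 k.2) ∧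
        (dyc v q.1 q.2 ∩ A).Nonempty} from fun q hq => ⟨(pas_mem hq.1.1).1, hq.2, hq.1.2⟩)
  · -- in a box
    have h3 : ∑' q : Bx k, f q ≤ ∑' q : Bx k, ENNReal.ofReal (B k.1) * cellT v I univ H q.1 := by
      refine ENNReal.tsum_le_tsum fun q => ?_
      simp only [hf]
      rw [(pas_cellT q.2.1 H).2]
      gcongr
      exact h2 k.1 k.2.1 _ q.2.2
    refine h3.trans ?_
    rw [ENNReal.tsum_mul_left]
    gcongr
    refine le_trans ?_ (Dm.sumBox k.1 k.2.1)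
    refine ENNReal.tsum_mono_subtype (fun q => cellT v I univ H q)
      (show Bx k ⊆ {q : Idx | q ∈ I ∧ dyc v q.1 q.2 ⊆ dyc v k.1.1 k.1.2 ∧
        ¬ IsNear v n N k.1 q} from fun q hq => ⟨(pas_mem hq.1).1, hq.2, fun hn => ?_⟩)
    obtain ⟨y, hy1, hy2⟩ := hn.2
    exact disjoint_left.1 ((pas_mem hq.1).2 k.1 k.2.1) hy1 hy2

end Vale.Agent.P073.H523
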