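import Vale.Agent.P073.H234.GX.Def
import Vale.Agent.P073.H83.BVB

/-!
# P073, block B10: `SpecVBX`, `SpecBVBX`, the generic origins with the property `GX`

Copies of `H83.exists_boxVG`, `H83.specVB`, `H83.specBVB`, with one more subsequence of generations.
-/

namespace Vale.Agent.P073.H523

open MeasureTheory Set Filter Topology Metric Vale.Agent.P073.St Vale.Agent.P073.AB
open Vale.Agent.P073.SQ (ev)
open Vale.Agent.P073.LOC (Near Q1)
open Vale.Agent.P073.H235 (Bx cmpD fl bm P1 P2 GSet SpecGSet SpecV SpecV2)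
open Vale.Agent.P073.H253 (BVData)
open Vale.Agent.P073.H194 (sInt Gen idx)
open Vale.Agent.P073.H16 (energy_cmp isHomeo_cmp isSobolev_cmp posK mem_posK mem_posK_edge
  exists_avg measurable_eInt lintegral_sInt_le lintegral_eInt_le thin thin_sub volume_thin
  exists_slice fl_pos fl_le_one P2_ev_two bm_pos bm_le_one P1_ev_one P1_ev_two thin2 thin2_sub
  volume_thin2 thin2_thin)
open Vale.Agent.P073.H333 (gen_comp genB_comp)
open Vale.Agent.P073.H234.GX (GXT GXOk SpecVBX SpecBVBX)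
open Vale.Agent.P073.H83 (GenB ownPt_of)
open _root_.P073.Net (dyc dyo)
open scoped ENNReal

variable {a : V}

/-- **the generic origin** in a given set `Q` of origins, for any compressed box and any linear map
killing the compressed directions (`H83.exists_boxVG`), with the generic property `GX`. -/
theorem exists_boxVGX {p : ℝ} {GX : GXT} (hGX : GXOk p GX) (hp : 1 ≤ p) (ha : ∀ i, 0 < a i) (ha1 : ∀ i, a i ≤ 1)
    {L : V →L[ℝ] V} (hL : ∀ j, a j ≠ 1 → L (ev j) = 0) {κ : ℝ} (hκ : 0 < κ) (m : ℕ) {Q : Set V}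
    (hQm : MeasurableSet Q) (hQ : Q ⊆ Icc (0:V) 1) (hQ0 : volume Q ≠ 0) :
    ∃ κ' > 0, ∀ (Λ : Set V) (f : V → V) (F : V → Mat), Near p κ' L Λ f F →
      ∀ (Pv : V → Prop), (∀ᵐ v : V, Pv v) →
      ∃ v ∈ Q, ∃ nn : ℕ → ℕ, StrictMono nn ∧ ∃ (H H₁ : V → ℝ≥0∞) (N : Set V),
        Pv v ∧ volume N = 0 ∧
        (∀ A A' : V → ℝ≥0∞, (∀ x, x ∉ N → A x = A' x) →
          (∀ e, eInt v e A = eInt v e A') ∧ ∀ s, sInt v s A = sInt v s A') ∧
        Measurable H ∧ Measurable H₁ ∧ ∫⁻ x, H x ≠ ⊤ ∧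
        (∀ x ∈ Bx a, x ∉ N → H x = ‖cl (cmpD a F x)‖ₑ ^ p) ∧
        (∀ x ∈ Bx a, x ∉ N → H₁ x = ‖cl (cmpD a F x) - L‖ₑ ^ p) ∧
        Gen v nn H ∧ GenB v nn H ∧ Gen v nn H₁ ∧ GenB v nn H₁ ∧
        (∀ k : ℕ, Gen v nn (fun x => H x + H194.Bk k x) ∧
          GenB v nn (fun x => H x + H194.Bk k x)) ∧
        RatGood v (Bx a) (H235.cmp a f) (cmpD a F) ∧
        (∀ h : V → V, St.IsInv (Bx a) Λ (H235.cmp a f) h →
          ∀ᵐ y : V, y ∈ Λ → ∀ n, h y ∈ dyo v n (idx v n (h y))) ∧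
        ∫⁻ x in Bx a, H₁ x ≤ ENNReal.ofReal κ ∧
        (∀ (l : Fin 3) (S : Finset (Fin 3 → ℤ)), (∀ k ∈ S, squ v ((m, k), l) ⊆ Bx a) →
          ∑ k ∈ S, sInt v ((m, k), l) H₁ ≤ ENNReal.ofReal κ) ∧
        (∀ (l : Fin 3) (S : Finset (Fin 3 → ℤ)), (∀ k ∈ S, edge v ((m, k), l) ⊆ Bx a) →
          ∑ k ∈ S, eInt v ((m, k), l) H₁ ≤ ENNReal.ofReal κ) ∧
        H523.OwnGen p (Bx a) (H235.cmp a f) (cmpD a F) nn v ∧
        GX (Bx a) (H235.cmp a f) (cmpD a F) v nn := by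
  have hp0 : 0 < p := by linarith
  have hQt : volume Q ≠ ⊤ := ne_top_of_le_ne_top isCompact_Icc.measure_lt_top.ne (measure_mono hQ)
  obtain ⟨q, hq, hqe⟩ : ∃ q : ℝ, 0 < q ∧ volume Q = ENNReal.ofReal q :=
    ⟨(volume Q).toReal, ENNReal.toReal_pos hQ0 hQt, (ENNReal.ofReal_toReal hQt).symm⟩
  have hq1 : q ≤ 1 := by
    have h1 : ENNReal.ofReal q ≤ 1 := by
      rw [← hqe]
      refine (measure_mono hQ).trans ?_
      rw [Real.volume_Icc_pi]; simp
    rwa [ENNReal.ofReal_le_one] at h1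
  obtain ⟨C, hC, hE⟩ := energy_cmp ha hL hp
  obtain ⟨c, hc⟩ : ∃ c : ℕ, c = (posK m).card := ⟨_, rfl⟩
  have hc0 : (0:ℝ) ≤ c := Nat.cast_nonneg c
  obtain ⟨κ', hκ'⟩ : ∃ κ' : ℝ, κ' = κ * q / (C * (6 * c + 1)) := ⟨_, rfl⟩
  have hκ'0 : 0 < κ' := by rw [hκ']; positivity
  have hCκ : C * κ' = κ * q / (6 * c + 1) := by
    rw [hκ']; field_simp
  have hCκ1 : C * κ' ≤ κ := by
    rw [hCκ, div_le_iff₀ (by positivity)]
    have h2 : q ≤ 6 * (c:ℝ) + 1 := by linarith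
    exact mul_le_mul_of_nonneg_left h2 hκ.le
  have hCκ2 : (c:ℝ) * (6 * (C * κ')) < κ * q := by
    rw [hCκ]
    have h1 : (c:ℝ) * (6 * (κ * q / (6 * c + 1))) = κ * q * (6 * c / (6 * c + 1)) := by
      field_simp
    rw [h1]
    have h2 : (6 * c:ℝ) / (6 * c + 1) < 1 := by rw [div_lt_one (by positivity)]; linarith
    have h3 : 0 < κ * q := by positivity
    nlinarith
  refine ⟨κ', hκ'0, fun Λ f F hN Pv hPv => ?_⟩
  have hhom := isHomeo_cmp ha hN.homeo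
  have hsob := isSobolev_cmp ha hp hN.sob
  have hdom : St.IsBoundedDomain (Bx a) := H761.isBoundedDomain_Bx ha
  have hvol : volume (Bx a) ≠ ⊤ := PK.volume_ne_top_of_domain hdom
  obtain ⟨h₀, hinv, hfc, hh₀⟩ := hhom
  have hen : ∫⁻ x in Bx a, ‖cl (cmpD a F x) - L‖ₑ ^ p ≤ ENNReal.ofReal (C * κ') := by
    refine (hE f F hN.sob).trans ?_
    rw [ENNReal.ofReal_mul hC.le]
    exact mul_le_mul_right hN.near _
  set G₀ : V → ℝ≥0∞ := (Bx a).indicator fun x => ‖cl (cmpD a F x)‖ₑ ^ p with hG₀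
  set G₁ : V → ℝ≥0∞ := (Bx a).indicator fun x => ‖cl (cmpD a F x) - L‖ₑ ^ p with hG₁
  have hm0 : AEMeasurable G₀ := by
    rw [hG₀, aemeasurable_indicator_iff hdom.1.measurableSet]
    exact (PK.IsSob.aesm hsob).enorm.pow_const p
  have hm1 : AEMeasurable G₁ := by
    rw [hG₁, aemeasurable_indicator_iff hdom.1.measurableSet]
    exact ((PK.IsSob.aesm hsob).sub aestronglyMeasurable_const).enorm.pow_const p
  obtain ⟨H, hHm, hHe⟩ : ∃ H : V → ℝ≥0∞, Measurable H ∧ G₀ =ᵐ[volume] H :=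
    ⟨_, hm0.measurable_mk, hm0.ae_eq_mk⟩
  obtain ⟨H₁, hH1m, hH1e⟩ : ∃ H : V → ℝ≥0∞, Measurable H ∧ G₁ =ᵐ[volume] H :=
    ⟨_, hm1.measurable_mk, hm1.ae_eq_mk⟩
  have hint : ∫⁻ x, H x ≠ ⊤ := by
    rw [← lintegral_congr_ae hHe, hG₀, lintegral_indicator hdom.1.measurableSet]
    exact PK.IsSob.lintegral_ne_top hp hsob
  have hint1 : ∫⁻ x, H₁ x ≤ ENNReal.ofReal (C * κ') := by
    rw [← lintegral_congr_ae hH1e, hG₁, lintegral_indicator hdom.1.measurableSet]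
    exact hen
  have hint1' : ∫⁻ x, H₁ x ≠ ⊤ := ne_top_of_le_ne_top ENNReal.ofReal_ne_top hint1
  have hnull : volume ({x | ¬ G₀ x = H x} ∪ {x | ¬ G₁ x = H₁ x}) = 0 :=
    measure_union_null hHe hH1e
  obtain ⟨nn, hnn, h1⟩ := H83.exists_gen (ι := Bool ⊕ ℕ) (κ := Empty)
    (Sum.elim (fun b => if b then H else H₁) fun k x => H x + H194.Bk k x) ∅
    (fun k => k.elim) (by
      rintro (b | k)
      · cases b; exacts [hH1m, hHm]
      · exact hHm.add (H194.measurable_Bk k))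
    (by
      rintro (b | k)
      · cases b; exacts [hint1', hint]
      · show ∫⁻ x, (H x + H194.Bk k x) ≠ ⊤
        rw [lintegral_add_left hHm]
        exact ENNReal.add_ne_top.2 ⟨hint, H194.lintegral_Bk k⟩) countable_empty
    (fun k => k.elim) (fun k => k.elim) strictMono_id
  have h2 := ae_restrict_of_ae (s := Icc (0:V) 1) (PK.ae_ratGood hp hdom.1 hvol hfc hsob)
  have h3 := ae_restrict_of_ae (s := Icc (0:V) 1) (H83.ae_rep hnull)
  have h4 := ae_restrict_of_ae (s := Icc (0:V) 1) (H83.ae_planes hN.dom.1 hh₀)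
  have h5 := ae_restrict_of_ae (s := Icc (0:V) 1) hPv
  obtain ⟨φ₁, hφ₁, h7⟩ := hGX.ex (Bx a) Λ (H235.cmp a f) (cmpD a F) hdom hN.dom
    (isHomeo_cmp ha hN.homeo) hsob nn hnn
  obtain ⟨φ₂, hφ₂, h6⟩ := H523.exists_ownGen hp hdom hfc hsob (hnn.comp hφ₁)
  have hφ : StrictMono fun l => φ₁ (φ₂ l) := hφ₁.comp hφ₂
  set J : V → ℝ≥0∞ := fun v => ∑ k ∈ posK m,
    ∑ l : Fin 3, (sInt v ((m, k), l) H₁ + eInt v ((m, k), l) H₁) with hJdef
  have hJm : ∀ k ∈ posK m, Measurable fun v : V =>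
      ∑ l : Fin 3, (sInt v ((m, k), l) H₁ + eInt v ((m, k), l) H₁) := fun k _ =>
    Finset.measurable_sum _ fun l _ => (H83.measurable_sInt _ hH1m).add (measurable_eInt _ hH1m)
  have hJ : ∫⁻ v, J v < ENNReal.ofReal κ * volume Q := by
    rw [hJdef, lintegral_finsetSum _ hJm]
    have hk : ∀ k ∈ posK m, ∫⁻ v : V, ∑ l : Fin 3, (sInt v ((m, k), l) H₁ +
        eInt v ((m, k), l) H₁) ≤ ENNReal.ofReal (6 * (C * κ')) := by
      intro k _
      have hml : ∀ l ∈ (Finset.univ : Finset (Fin 3)), Measurable fun v : V =>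
          sInt v ((m, k), l) H₁ + eInt v ((m, k), l) H₁ := fun l _ =>
        (H83.measurable_sInt _ hH1m).add (measurable_eInt _ hH1m)
      rw [lintegral_finsetSum _ hml]
      have hl : ∀ l ∈ (Finset.univ : Finset (Fin 3)), ∫⁻ v : V, (sInt v ((m, k), l) H₁ +
          eInt v ((m, k), l) H₁) ≤ ENNReal.ofReal (2 * (C * κ')) := by
        intro l _
        rw [lintegral_add_left (H83.measurable_sInt _ hH1m)]
        refine (add_le_add ((lintegral_sInt_le ((m, k), l) hH1m).trans hint1)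
          ((lintegral_eInt_le ((m, k), l) hH1m).trans hint1)).trans (le_of_eq ?_)
        rw [← ENNReal.ofReal_add (by positivity) (by positivity)]
        congr 1; ring
      refine (Finset.sum_le_card_nsmul _ _ _ hl).trans (le_of_eq ?_)
      rw [Finset.card_univ, Fintype.card_fin, nsmul_eq_mul, ← ENNReal.ofReal_natCast,
        ← ENNReal.ofReal_mul (Nat.cast_nonneg _)]
      congr 1; push_cast; ring
    refine lt_of_le_of_lt (Finset.sum_le_card_nsmul _ _ _ hk) ?_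
    rw [hqe, ← ENNReal.ofReal_mul hκ.le, nsmul_eq_mul, ← hc, ← ENNReal.ofReal_natCast,
      ← ENNReal.ofReal_mul (Nat.cast_nonneg c)]
    exact (ENNReal.ofReal_lt_ofReal_iff (by positivity)).2 hCκ2
  obtain ⟨v, hvQ, ⟨k1, k2, k3, k4, k5, k6, k7⟩, hvJ⟩ := exists_avg
    (h1.and (h2.and (h3.and (h4.and (h5.and (h6.and h7)))))) hQm hQ hJ
  refine ⟨v, hvQ, fun l => nn (φ₁ (φ₂ l)), hnn.comp hφ, H, H₁, _, k5, hnull, fun A A' hA => ?_, hHm,
    hH1m, hint, ?_, ?_, gen_comp (k1.1 (Sum.inl true)) hφ, genB_comp (k1.2.1 (Sum.inl true)) hφ,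
    gen_comp (k1.1 (Sum.inl false)) hφ, genB_comp (k1.2.1 (Sum.inl false)) hφ,
    fun k => ⟨gen_comp (k1.1 (Sum.inr k)) hφ, genB_comp (k1.2.1 (Sum.inr k)) hφ⟩, k2, ?_, ?_, ?_,
    ?_, k6, hGX.sub _ _ _ _ (fun l => nn (φ₁ l)) φ₂ k7 hφ₂⟩
  · exact k3 A A' hA
  · intro x hx hxN
    have : G₀ x = H x := by
      by_contra hcon
      exact hxN (Or.inl hcon)
    rw [← this, hG₀, indicator_of_mem hx]
  · intro x hx hxN
    have : G₁ x = H₁ x := by
      by_contra hcon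
      exact hxN (Or.inr hcon)
    rw [← this, hG₁, indicator_of_mem hx]
  · intro h hh
    filter_upwards [k4] with y hy hyΛ
    have e : h y = h₀ y := by
      obtain ⟨e1, e2⟩ := hinv.2 y hyΛ
      have e3 := (hh.1 _ e1).2
      rw [e2] at e3
      exact e3
    rw [e]
    exact hy hyΛ
  · exact (setLIntegral_le_lintegral _ _).trans (hint1.trans (ENNReal.ofReal_le_ofReal hCκ1))
  · intro l S hS
    refine le_trans ?_ hvJ
    refine (Finset.sum_le_sum fun k _ => ?_).trans (Finset.sum_le_sum_of_subset fun k hk => ?_)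
    · exact le_self_add.trans (Finset.single_le_sum
        (f := fun l => sInt v ((m, k), l) H₁ + eInt v ((m, k), l) H₁) (fun _ _ => zero_le)
        (Finset.mem_univ l))
    · exact mem_posK (hQ hvQ) (hS k hk) ha1
  · intro l S hS
    refine le_trans ?_ hvJ
    refine (Finset.sum_le_sum fun k _ => ?_).trans (Finset.sum_le_sum_of_subset fun k hk => ?_)
    · exact le_add_self.trans (Finset.single_le_sum
        (f := fun l => sInt v ((m, k), l) H₁ + eInt v ((m, k), l) H₁) (fun _ _ => zero_le)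
        (Finset.mem_univ l))
    · exact mem_posK_edge (hQ hvQ) (hS k hk) ha1



/-- **(F1) [VB]** -/
theorem specVBX {p : ℝ} {GX : GXT} (hGX : GXOk p GX) : SpecVBX p GX := by
  intro C₀ hp hG θ κ m₀ hθ hθ1 hκ
  obtain ⟨κ', hκ', HH⟩ := exists_boxVGX (a := fl θ) hGX hp (fl_pos hθ) (fl_le_one hθ1) (L := P2) (by
    intro j hj
    fin_cases j
    · exact absurd rfl hj
    · exact absurd rfl hj
    · exact P2_ev_two) hκ m₀ (Q := thin 2 m₀) measurableSet_Icc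
    (thin_sub 2 m₀) (by
      rw [volume_thin]
      exact (ENNReal.ofReal_pos.2 (by positivity)).ne')
  refine ⟨κ', hκ', fun Λ f F hN => ?_⟩
  have hhom := isHomeo_cmp (fl_pos hθ) hN.homeo
  have hsob := isSobolev_cmp (fl_pos hθ) hp hN.sob
  have hdom : St.IsBoundedDomain (Bx (fl θ)) := H761.isBoundedDomain_Bx (fl_pos hθ)
  have hvol : volume (Bx (fl θ)) ≠ ⊤ := PK.volume_ne_top_of_domain hdom
  have hfc : ContinuousOn (H235.cmp (fl θ) f) (Bx (fl θ)) := by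
    obtain ⟨h, -, h2, -⟩ := hhom; exact h2
  obtain ⟨v, hv, nn, hnn, H, H₁, N, g0, g1, g2, g3, g4, g5, g6, g7, g8, g9, -, g10, gk, g11, g12,
    g13, g14, -, g15, g16⟩ := HH Λ f F hN _ (hG p _ _ _ hp hdom.1 hvol hfc hsob)
  exact ⟨hhom, hsob, ⟨⟨v, nn, hnn, H, H₁, N, g1, g2, g3, g4, g5, g6, g7, g8, g9, g10, g11, g0,
    g12, g13, ⌊θ * 2 ^ m₀⌋, exists_slice hv, fun S hS => g14 2 S fun k hk => (hS k hk).2⟩, gk⟩,
    g15.gen, g16, ownPt_of g15 hdom.1 hnn⟩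


/-- **(G1) [BVB]** -/
theorem specBVBX {p : ℝ} {GX : GXT} (hGX : GXOk p GX) : SpecBVBX p GX := by
  intro hp θ₁ θ₂ κ m₀ h1 h1' h2 h2' hκ
  obtain ⟨κ', hκ', HH⟩ := exists_boxVGX (a := bm θ₁ θ₂) hGX hp (bm_pos h1 h2) (bm_le_one h1' h2')
    (L := P1) (by
      intro j hj
      fin_cases j
      · exact absurd rfl hj
      · exact P1_ev_one
      · exact P1_ev_two) hκ m₀ (Q := thin2 m₀) measurableSet_Icc (thin2_sub m₀) (volume_thin2 m₀)
  refine ⟨κ', hκ', fun Λ f F hN => ?_⟩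
  have hhom := isHomeo_cmp (bm_pos h1 h2) hN.homeo
  have hsob := isSobolev_cmp (bm_pos h1 h2) hp hN.sob
  have hdom : St.IsBoundedDomain (Bx (bm θ₁ θ₂)) := H761.isBoundedDomain_Bx (bm_pos h1 h2)
  obtain ⟨v, hv, nn, hnn, H, H₁, N, -, g1, g2, g3, g4, g5, g6, g7, g8, g9, -, g10, gk, g11, g12,
    g13, g14, g15, g16, g17⟩ := HH Λ f F hN (fun _ => True) (Eventually.of_forall fun _ => trivial)
  obtain ⟨hv1, hv2⟩ := thin2_thin m₀ hv
  refine ⟨hhom, hsob, ⟨v, nn, hnn, H, H₁, N, g1, g2, g3, g4, g5, g6, g7, g8, g9, g10, gk, g11,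
    g12, g13, ⌊θ₁ * 2 ^ m₀⌋, ⌊θ₂ * 2 ^ m₀⌋, exists_slice hv1, exists_slice hv2,
    fun S hS => g14 1 S fun k hk => (hS k hk).2, fun S hS => ?_⟩, g16.gen, g17,
    ownPt_of g16 hdom.1 hnn⟩
  have hinj : Function.Injective
      fun k : ℤ => (![k, ⌊θ₁ * 2 ^ m₀⌋, ⌊θ₂ * 2 ^ m₀⌋] : Fin 3 → ℤ) := fun k k' h => congrFun h 0
  have h3 := g15 0 (S.image fun k : ℤ => (![k, ⌊θ₁ * 2 ^ m₀⌋, ⌊θ₂ * 2 ^ m₀⌋] : Fin 3 → ℤ)) (by
    intro k hk
    rw [Finset.mem_image] at hk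
    obtain ⟨k', hk', rfl⟩ := hk
    exact hS k' hk')
  rw [Finset.sum_image fun a _ b _ h => hinj h] at h3
  exact h3

end Vale.Agent.P073.H523
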